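import Crest.Agent.N250.Tb.Defs
import Crest.Agent.N250.Re.Pt
import Crest.Agent.N250.FV.Ch
import Crest.Agent.R211.Area

-- ▼ part N250/Tb/P
section

/-!
# Row 250, tube calculus (helper80): the signed distance restricted to another surface
-/

set_option autoImplicit false
open MeasureTheory Set Filter Topology Function
open scoped ContDiff InnerProductSpace
open Crest.GeometryTopology.MCF

noncomputable section

namespace Crest.Agent.N250.Tb

/-- the height `v = sd ∘ fst` -/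
def ht (sd : E → ℝ) (q : ST) : ℝ := sd q.1

/-- `⟨n_N, n_S ∘ pr⟩` -/
def cs (S : Mv) (t : ℝ) (pr : E → E) (N : Mv) (q : ST) : ℝ := ⟪N.n q, S.n (pr q.1, t)⟫_ℝ

/-- `⟨x, ∇ f⟩` -/
def xD (N : Mv) (f : ST → ℝ) (q : ST) : ℝ := ∑ a, q.1 a * N.D a f q

/-- the Hessian of the signed distance, `A ∘ D pr` -/
def hs (S : Mv) (t : ℝ) (pr : E → E) (x : E) : E →L[ℝ] E := (sh S (pr x, t)).comp (fderiv ℝ pr x)

/-- the quadratic error in the height equation -/
def err (S : Mv) (t : ℝ) (pr : E → E) (sd : E → ℝ) (N : Mv) (q : ST) : ℝ :=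
  sd q.1 ^ 2 * ∑ a, sh S (pr q.1, t) (sh S (pr q.1, t) (hs S t pr q.1 (ee a))) a -
    ⟪hs S t pr q.1 (N.n q), N.n q⟫_ℝ

theorem PL_coord (N : Mv) (p : ST) (v : E) (a : Fin 3) : ⟪v, N.PL p (ee a)⟫_ℝ = N.PL p v a := by
  rw [← inner_PL, inner_ee]

theorem tr_PL (N : Mv) (p : ST) (B : E →L[ℝ] E) :
    ∑ a, B (N.PL p (ee a)) a = ∑ a, B (ee a) a - ⟪B (N.n p), N.n p⟫_ℝ := by
  have e : B (N.n p) = ∑ a, N.n p a • B (ee a) := by
    conv_lhs => rw [eq_sum_ee (N.n p)]
    simp only [map_sum, map_smul]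
  simp only [Mv.PL, map_sub, map_smul, inner_ee, PiLp.sub_apply, PiLp.smul_apply, smul_eq_mul,
    Finset.sum_sub_distrib, inner_eq_sum (B _), mul_comm]

theorem abs_coord_le (v : E) (a : Fin 3) : |v a| ≤ ‖v‖ := by
  simpa using PiLp.norm_apply_le v a

theorem norm_ee (a : Fin 3) : ‖ee a‖ = 1 := by simp [ee]

namespace Tub

variable {S N : Mv} {t : ℝ} {W : Set E} {pr : E → E} {sd : E → ℝ} {x : E} {p w : ST}

section Amb

variable (h : Tub S t W pr sd) (hS : S.Reg) (hx : x ∈ W)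
include h hS hx

theorem hs_eq (v : E) : hs S t pr x v =
    sh S (pr x, t) v - sd x • sh S (pr x, t) (hs S t pr x v) := by
  have := congrArg (sh S (pr x, t)) (h.Dpr_eq hS hx v)
  rw [map_add, map_smul, sh_PL hS (h.mem x hx)] at this
  exact eq_sub_of_add_eq this

theorem tr_hs : ∑ a, hs S t pr x (ee a) a = S.H (pr x, t) - sd x * S.A2 (pr x, t) +
    sd x ^ 2 * ∑ a, sh S (pr x, t) (sh S (pr x, t) (hs S t pr x (ee a))) a := by
  rw [H_eq hS (h.mem x hx), A2_eq hS (h.mem x hx), Finset.mul_sum, Finset.mul_sum,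
    ← Finset.sum_sub_distrib, ← Finset.sum_add_distrib]
  refine Finset.sum_congr rfl fun a _ => ?_
  conv_lhs => rw [h.hs_eq hS hx, h.hs_eq hS hx]
  simp only [map_sub, map_smul, PiLp.sub_apply, PiLp.smul_apply, smul_eq_mul]
  ring

theorem PL_hs (v : E) : S.PL (pr x, t) (hs S t pr x v) = hs S t pr x v :=
  Mv.PL_of_perp (n_sh hS (h.mem x hx) _)


theorem norm_hs {κ : ℝ} (hκ : 0 ≤ κ) (hA : S.A2 (pr x, t) ≤ κ ^ 2) (hd : |sd x| * κ ≤ 1 / 2)
    (v : E) : ‖hs S t pr x v‖ ≤ 2 * κ * ‖S.PL (pr x, t) v‖ := by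
  refine (norm_sh_le hS (h.mem x hx) hκ hA (fderiv ℝ pr x v)).trans ?_
  have := mul_le_mul_of_nonneg_left (h.norm_Dpr hS hx hκ hA hd v) hκ
  linarith

theorem inner_x : ⟪x, S.n (pr x, t)⟫_ℝ = S.xn 0 (pr x, t) + sd x := by
  have := congrArg (fun y => ⟪y, S.n (pr x, t)⟫_ℝ) (h.dec x hx)
  simpa only [inner_add_left, inner_smul_left, hS.inner_n (h.mem x hx), conj_trivial, mul_one,
    Mv.xn, sub_zero] using this

end Amb

variable (h : Tub S t W pr sd) (hS : S.Reg) (hN : N.Reg) (hp : p ∈ N.M) (hW : p.1 ∈ W)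
include h hW

theorem evW : ∀ᶠ q in 𝓝 p, q.1 ∈ W := continuous_fst.continuousAt.eventually (h.op.mem_nhds hW)

theorem ht_at : ContDiffAt ℝ ∞ (ht sd) p := (h.sd_at hW).comp p contDiffAt_fst

include hS

theorem nu_at : ContDiffAt ℝ ∞ (fun q : ST => S.n (pr q.1, t)) p :=
  ((h.sm_comp hS.sm_n).contDiffAt (h.op.mem_nhds hW)).comp p contDiffAt_fst

theorem hasHt : HasFDerivAt (ht sd)
    ((innerSL ℝ (S.n (pr p.1, t))).comp (ContinuousLinearMap.fst ℝ E ℝ)) p :=
  HasFDerivAt.comp p (f := Prod.fst) (h.fderiv_sd hS hW ▸ h.hasSd hW) hasFDerivAt_fst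

theorem hasNu' : HasFDerivAt (fun q : ST => S.n (pr q.1, t))
    ((hs S t pr p.1).comp (ContinuousLinearMap.fst ℝ E ℝ)) p :=
  HasFDerivAt.comp p (f := Prod.fst) (h.hasNu hS hW) hasFDerivAt_fst

include hN hp

theorem cs_at : ContDiffWithinAt ℝ ∞ (cs S t pr N) N.M p :=
  (hN.sm_n p hp).inner ℝ (h.nu_at hS hW).contDiffWithinAt

theorem cs_sq_le : cs S t pr N p ^ 2 ≤ 1 := by
  have := abs_real_inner_le_norm (N.n p) (S.n (pr p.1, t))
  rw [hN.norm_n hp, hS.norm_n (h.mem _ hW), mul_one] at this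
  exact (sq_le_one_iff_abs_le_one _).2 this

theorem td_ht (hw : N.Tg p w) : N.td (ht sd) p w = ⟪S.n (pr p.1, t), w.1⟫_ℝ :=
  hN.td_eq hp (h.hasHt hS hW).hasFDerivWithinAt hw

theorem D_ht (a : Fin 3) : N.D a (ht sd) p = N.PL p (S.n (pr p.1, t)) a := by
  rw [Mv.D_apply, h.td_ht hS hN hp hW (hN.tg_PL hp _), PL_coord]

theorem D_ht' (a : Fin 3) : N.D a (ht sd) p = S.nu a (pr p.1, t) - cs S t pr N p * N.nu a p :=
  h.D_ht hS hN hp hW a

/-- `|∇ v|² = 1 - ⟨n, ν⟩²` -/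
theorem gam_ht : N.gam (ht sd) (ht sd) p = 1 - cs S t pr N p ^ 2 := by
  simp only [Mv.gam_apply, h.D_ht hS hN hp hW]
  rw [← inner_eq_sum, real_inner_self_eq_norm_sq, norm_PL_sq hN hp, hS.norm_n (h.mem _ hW), one_pow]
  rfl

theorem gam_ht_le : N.gam (ht sd) (ht sd) p ≤ 1 := by
  rw [h.gam_ht hS hN hp hW]; nlinarith [sq_nonneg (cs S t pr N p)]


theorem xD_ht : xD N (ht sd) p =
    S.xn 0 (pr p.1, t) + ht sd p - cs S t pr N p * N.xn 0 p := by
  simp only [xD, h.D_ht hS hN hp hW]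
  rw [← inner_eq_sum, Mv.PL, inner_sub_right, inner_smul_right, h.inner_x hS hW]
  simp only [Mv.xn, sub_zero, cs, ht]

theorem DD_ht (a b : Fin 3) : N.D a (N.D b (ht sd)) p = hs S t pr p.1 (N.PL p (ee a)) b -
    (cs S t pr N p * N.A a b p + N.D a (cs S t pr N) p * N.nu b p) := by
  have e : N.D b (ht sd) =ᶠ[𝓝[N.M] p]
      fun q => S.n (pr q.1, t) b - (cs S t pr N * N.nu b) q := by
    filter_upwards [nhdsWithin_le_nhds (h.evW hW), self_mem_nhdsWithin] with q h1 h2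
      using h.D_ht' hS hN h2 h1 b
  have d1 := ((EuclideanSpace.proj (𝕜 := ℝ) b).hasFDerivAt.comp p
    (h.hasNu' hS hW)).hasFDerivWithinAt (s := N.M)
  have c1 := (h.cs_at hS hN hp hW).differentiableWithinAt (by simp)
  have c2 := (hN.sm_nu b).diffW hp
  rw [Mv.D_congr hp e, Mv.D_apply]
  refine (hN.td_eq hp (d1.sub (c1.mul c2).hasFDerivWithinAt) (hN.tg_PL hp _)).trans ?_
  exact congrArg₂ (· - ·) rfl (hN.td_mul hp c1 c2 (hN.tg_PL hp (ee a)))

theorem lap_ht : N.lap (ht sd) p = ∑ a, hs S t pr p.1 (ee a) a -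
    ⟪hs S t pr p.1 (N.n p), N.n p⟫_ℝ - cs S t pr N p * N.H p := by
  have := hN.n_D hp (cs S t pr N)
  simp only [Mv.lap_apply, h.DD_ht hS hN hp hW, Finset.sum_sub_distrib, Finset.sum_add_distrib,
    tr_PL, Mv.H_apply, Finset.mul_sum, mul_comm (N.D _ _ p), this, add_zero]

/-- the height equation -/
theorem eqn : N.lap (ht sd) p - xD N (ht sd) p / 2 + (S.A2 (pr p.1, t) + 1 / 2) * ht sd p =
    S.shr (pr p.1, t) - N.shr p * cs S t pr N p + err S t pr sd N p := by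
  rw [h.lap_ht hS hN hp hW, h.tr_hs hS hW, h.xD_ht hS hN hp hW, err, Mv.shr, Mv.shr, ht]
  ring

theorem err_le {κ : ℝ} (hκ : 0 ≤ κ) (hA : S.A2 (pr p.1, t) ≤ κ ^ 2)
    (hd : |ht sd p| * κ ≤ 1 / 2) :
    |err S t pr sd N p| ≤ 6 * κ ^ 3 * ht sd p ^ 2 + 2 * κ * N.gam (ht sd) (ht sd) p := by
  have hy := h.mem _ hW
  have h1 : ∀ a, |sh S (pr p.1, t) (sh S (pr p.1, t) (hs S t pr p.1 (ee a))) a| ≤ 2 * κ ^ 3 :=
    fun a => by
      refine (abs_coord_le _ a).trans ((norm_sh_le hS hy hκ hA _).trans ?_)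
      have a1 := norm_sh_le hS hy hκ hA (hs S t pr p.1 (ee a))
      have a2 := h.norm_hs hS hW hκ hA hd (ee a)
      have a3 := norm_PL_le hS hy (ee a)
      rw [norm_ee] at a3
      calc _ ≤ κ * (κ * (2 * κ * 1)) := by
            gcongr
            refine a1.trans ?_
            gcongr
            refine a2.trans ?_
            gcongr
        _ = _ := by ring
  have h2 : |∑ a, sh S (pr p.1, t) (sh S (pr p.1, t) (hs S t pr p.1 (ee a))) a| ≤ 6 * κ ^ 3 := by
    refine (Finset.abs_sum_le_sum_abs _ _).trans ((Finset.sum_le_sum fun a _ => h1 a).trans ?_)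
    simp only [Finset.sum_const, Finset.card_univ, Fintype.card_fin, nsmul_eq_mul]
    norm_num; linarith
  have h3 : |⟪hs S t pr p.1 (N.n p), N.n p⟫_ℝ| ≤ 2 * κ * N.gam (ht sd) (ht sd) p := by
    have e : ⟪hs S t pr p.1 (N.n p), N.n p⟫_ℝ =
        ⟪hs S t pr p.1 (N.n p), S.PL (pr p.1, t) (N.n p)⟫_ℝ := by
      rw [← inner_PL, h.PL_hs hS hW]
    have e2 : N.gam (ht sd) (ht sd) p = ‖S.PL (pr p.1, t) (N.n p)‖ ^ 2 := by
      rw [h.gam_ht hS hN hp hW, norm_PL_sq hS hy, hN.norm_n hp, one_pow, real_inner_comm]; rfl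
    rw [e, e2]
    refine (abs_real_inner_le_norm _ _).trans ?_
    have := mul_le_mul_of_nonneg_right (h.norm_hs hS hW hκ hA hd (N.n p))
      (norm_nonneg (S.PL (pr p.1, t) (N.n p)))
    linarith
  rw [err]
  refine (abs_sub _ _).trans (add_le_add ?_ h3)
  rw [abs_mul, abs_of_nonneg (sq_nonneg _), mul_comm]
  exact mul_le_mul_of_nonneg_right h2 (sq_nonneg _)

/-- leaf P -/
theorem key {κ : ℝ} (hκ : 0 ≤ κ) (hA : S.A2 (pr p.1, t) ≤ κ ^ 2) (hd : |ht sd p| * κ ≤ 1 / 2) :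
    |N.lap (ht sd) p - xD N (ht sd) p / 2 + (S.A2 (pr p.1, t) + 1 / 2) * ht sd p -
      (S.shr (pr p.1, t) - N.shr p * cs S t pr N p)| ≤
      6 * κ ^ 3 * ht sd p ^ 2 + 2 * κ * N.gam (ht sd) (ht sd) p := by
  rw [h.eqn hS hN hp hW, add_sub_cancel_left]
  exact h.err_le hS hN hp hW hκ hA hd


/-! ### functions of the height -/

variable {ψ : ℝ → ℝ}

theorem td_psi {d : ℝ} (hψ : HasDerivAt ψ d (ht sd p)) (hw : N.Tg p w) :
    N.td (fun q => ψ (ht sd q)) p w = d * N.td (ht sd) p w :=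
  hN.td_comp1 hp (h.hasHt hS hW).differentiableAt.differentiableWithinAt hψ hw





end Tub

end Crest.Agent.N250.Tb

end
end

-- ▼ part N250/Tb/J0
section

/-!
# Row 250, tube calculus (helper80): area formula for injective maps defined on a slice
-/

set_option autoImplicit false
open MeasureTheory Set Filter Topology Function
open scoped ContDiff InnerProductSpace ENNReal
open Crest.GeometryTopology.MCF

noncomputable section

namespace Crest.Agent.N250.Tb

open FV R211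

theorem jac_eq_gram (J : FV.E2 →L[ℝ] E) : R241.AF.jac J = gramArea (J (e2 0)) (J (e2 1)) := by
  rw [← normDet_lin2, R241.AF.jac]
  congr 1
  ext1 z
  have : z = z 0 • e2 0 + z 1 • e2 1 := by
    ext i; fin_cases i <;> simp [e2]
  rw [lin2_apply, ← map_smul, ← map_smul, ← map_add, ← this]; rfl

/-- `Jc` is the tangential Jacobian of `T` on the plane orthogonal to `n` -/
def IsJac (n : E) (T : E →L[ℝ] E) (Jc : ℝ) : Prop :=
  ∀ a b, ⟪n, a⟫_ℝ = 0 → ⟪n, b⟫_ℝ = 0 → gramArea (T a) (T b) = Jc * gramArea a b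

variable {N : Mv} {s : ℝ} {A : Set E} {f : E → E} {f' : E → E →L[ℝ] E} {Jc : E → ℝ}

theorem area_ch {X : FV.E2 × ℝ → E} {U : Set (FV.E2 × ℝ)} {W : Set ST} {L : E →L[ℝ] FV.E2}
    (h : Ch N X U W L) (hN : N.Reg) (hA : MeasurableSet A) (hs : A ⊆ N.sl s)
    (hW : ∀ x ∈ A, (x, s) ∈ W) (hf : ∀ x ∈ A, HasFDerivWithinAt f (f' x) (N.sl s) x)
    (hi : InjOn f A) (hJ : ∀ x ∈ A, IsJac (N.n (x, s)) (f' x) (Jc x)) (g : E → ℝ≥0∞) :
    ∫⁻ y in f '' A, g y ∂(μHE[2] : Measure E) =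
      ∫⁻ x in A, ENNReal.ofReal (Jc x) * g (f x) ∂N.mu s := by
  set Z : Set FV.E2 := {z | (z, s) ∈ U} ∩ (fun z => X (z, s)) ⁻¹' A with hZ
  have hc : ContinuousOn (fun z => X (z, s)) {z | (z, s) ∈ U} := fun z hz =>
    (h.hasXt s z hz).continuousWithinAt
  have mZ : MeasurableSet Z := by
    have := (continuousOn_iff_continuous_domRestrict.1 hc).measurable hA
    have := (MeasurableEmbedding.subtype_coe (h.oUt s).measurableSet).measurableSet_image.2 this
    convert this using 1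
    ext z
    simp [hZ, and_comm]
  have im : (fun z => X (z, s)) '' Z = A := by
    rw [hZ, image_inter_preimage, h.image_eq]
    exact inter_eq_right.2 fun x hx => ⟨hs hx, hW x hx⟩
  have d1 : ∀ z ∈ Z, HasFDerivWithinAt (fun z => X (z, s)) (Jz X (z, s)) Z z := fun z hz =>
    (h.hasXt s z hz.1).mono inter_subset_left
  have d2 : ∀ z ∈ Z, HasFDerivWithinAt (f ∘ fun z => X (z, s))
      ((f' (X (z, s))).comp (Jz X (z, s))) Z z := fun z hz =>
    (hf _ hz.2).comp z (d1 z hz) fun y hy => hs hy.2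
  have i1 : InjOn (fun z => X (z, s)) Z := (h.injXt s).mono inter_subset_left
  have i2 : InjOn (f ∘ fun z => X (z, s)) Z := hi.comp i1 fun y hy => hy.2
  have e1 := R241.AF.lintegral_image_eq mZ d2 i2 g
  have e2 := R241.AF.lintegral_image_eq mZ d1 i1 fun x => ENNReal.ofReal (Jc x) * g (f x)
  rw [finrank_euclideanSpace_fin] at e1 e2
  rw [image_comp, im] at e1
  rw [im] at e2
  rw [e1, Mv.mu, Measure.restrict_restrict hA, inter_eq_left.2 hs, e2]
  refine setLIntegral_congr_fun mZ fun z hz => ?_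
  simp only [comp_apply]
  rw [← mul_assoc, ← ENNReal.ofReal_mul (R241.AF.jac_nonneg _), jac_eq_gram, jac_eq_gram,
    mul_comm (gramArea _ _)]
  congr 2
  exact hJ _ hz.2 _ _ (h.n_Jz hN hz.1 _) (h.n_Jz hN hz.1 _)

theorem meas_image (hA : MeasurableSet A) (hs : A ⊆ N.sl s)
    (hf : ∀ x ∈ A, HasFDerivWithinAt f (f' x) (N.sl s) x) (hi : InjOn f A) :
    MeasurableSet (f '' A) :=
  hA.image_of_continuousOn_injOn (fun x hx => (hf x hx).continuousWithinAt.mono hs) hi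

/-- area formula, lower integrals -/
theorem area_map (hN : N.Reg) (hA : MeasurableSet A) (hs : A ⊆ N.sl s)
    (hf : ∀ x ∈ A, HasFDerivWithinAt f (f' x) (N.sl s) x)
    (hi : InjOn f A) (hJ : ∀ x ∈ A, IsJac (N.n (x, s)) (f' x) (Jc x)) (g : E → ℝ≥0∞) :
    ∫⁻ y in f '' A, g y ∂(μHE[2] : Measure E) =
      ∫⁻ x in A, ENNReal.ofReal (Jc x) * g (f x) ∂N.mu s := by
  rcases A.eq_empty_or_nonempty with rfl | hne
  · simp
  have : Nonempty A := hne.to_subtype
  choose X U W L h1 h2 using fun x : A => exists_ch hN (hs x.2)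
  obtain ⟨T, hT, hc⟩ := TopologicalSpace.isOpen_iUnion_countable
    (fun x : A => {y | (y, s) ∈ W x}) fun x => (h2 x).oWt s
  have hTn : T.Nonempty := by
    obtain ⟨x, hx⟩ := hne
    have : x ∈ ⋃ i ∈ T, {y | (y, s) ∈ W i} := hc ▸ mem_iUnion.2 ⟨⟨x, hx⟩, h1 _⟩
    obtain ⟨i, hi, -⟩ := mem_iUnion₂.1 this
    exact ⟨i, hi⟩
  obtain ⟨u, rfl⟩ := hT.exists_eq_range hTn
  rw [biUnion_range] at hc
  set O : ℕ → Set E := fun i => {y | (y, s) ∈ W (u i)} with hO
  have mO : ∀ i, MeasurableSet (A ∩ disjointed O i) := fun i =>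
    hA.inter (MeasurableSet.disjointed (fun i => ((h2 (u i)).oWt s).measurableSet) i)
  have cov : A = ⋃ i, A ∩ disjointed O i := by
    rw [← inter_iUnion, iUnion_disjointed, hc]
    exact (inter_eq_left.2 fun x hx => mem_iUnion.2 ⟨⟨x, hx⟩, h1 _⟩).symm
  have dis : Pairwise (Disjoint on fun i => A ∩ disjointed O i) := fun i j hij =>
    (disjoint_disjointed O hij).mono inter_subset_right inter_subset_right
  have dis' : Pairwise (Disjoint on fun i => f '' (A ∩ disjointed O i)) := fun i j hij =>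
    (dis hij).image hi inter_subset_left inter_subset_left
  conv_lhs => rw [cov, image_iUnion]
  conv_rhs => rw [cov]
  rw [lintegral_iUnion (fun i => meas_image (mO i) (inter_subset_left.trans hs)
    (fun x hx => hf x hx.1) (hi.mono inter_subset_left)) dis', lintegral_iUnion mO dis]
  exact tsum_congr fun i => area_ch (h2 (u i)) hN (mO i) (inter_subset_left.trans hs)
    (fun x hx => disjointed_subset O i hx.2) (fun x hx => hf x hx.1)
    (hi.mono inter_subset_left) (fun x hx => hJ x hx.1) g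

theorem emb_map (hA : MeasurableSet A) (hs : A ⊆ N.sl s)
    (hf : ∀ x ∈ A, HasFDerivWithinAt f (f' x) (N.sl s) x) (hi : InjOn f A) :
    MeasurableEmbedding (A.domRestrict f) :=
  ContinuousOn.measurableEmbedding hA (fun x hx => (hf x hx).continuousWithinAt.mono hs) hi

theorem map_eq (hN : N.Reg) (hA : MeasurableSet A) (hs : A ⊆ N.sl s)
    (hf : ∀ x ∈ A, HasFDerivWithinAt f (f' x) (N.sl s) x)
    (hi : InjOn f A) (hJ : ∀ x ∈ A, IsJac (N.n (x, s)) (f' x) (Jc x)) :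
    Measure.map (A.domRestrict f)
      (Measure.comap (↑) ((N.mu s).withDensity fun x => ENNReal.ofReal (Jc x))) =
      (μHE[2] : Measure E).restrict (f '' A) := by
  have he := emb_map hA hs hf hi
  ext T hT
  have e : (Subtype.val '' (A.domRestrict f ⁻¹' T)) = A ∩ f ⁻¹' T := by
    ext x; simp [and_comm]
  have m : MeasurableSet (A ∩ f ⁻¹' T) :=
    e ▸ (MeasurableEmbedding.subtype_coe hA).measurableSet_image.2 (he.measurable hT)
  have := area_map hN m (inter_subset_left.trans hs) (fun x hx => hf x hx.1)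
    (hi.mono inter_subset_left) (fun x hx => hJ x hx.1) fun _ => 1
  rw [he.map_apply, (MeasurableEmbedding.subtype_coe hA).comap_apply, e, withDensity_apply _ m,
    Measure.restrict_apply hT, inter_comm T, ← image_inter_preimage]
  simpa using this.symm

/-- area formula, Bochner integrals -/
theorem area_int (hN : N.Reg) (hA : MeasurableSet A) (hs : A ⊆ N.sl s)
    (hf : ∀ x ∈ A, HasFDerivWithinAt f (f' x) (N.sl s) x)
    (hi : InjOn f A) (hJ : ∀ x ∈ A, IsJac (N.n (x, s)) (f' x) (Jc x)) (h0 : ∀ x ∈ A, 0 ≤ Jc x)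
    (hm : AEMeasurable Jc ((N.mu s).restrict A)) (g : E → ℝ) :
    ∫ y in f '' A, g y ∂(μHE[2] : Measure E) = ∫ x in A, Jc x * g (f x) ∂N.mu s := by
  rw [← map_eq hN hA hs hf hi hJ, (emb_map hA hs hf hi).integral_map]
  simp only [Set.domRestrict_apply, ENNReal.ofReal]
  rw [← (MeasurableEmbedding.subtype_coe hA).integral_map (g := fun z => g (f z)),
    map_comap_subtype_coe hA, setIntegral_withDensity_eq_setIntegral_smul₀ hm.real_toNNReal _ hA]
  refine setIntegral_congr_fun hA fun z hz => ?_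
  simp only [NNReal.smul_def, Real.coe_toNNReal _ (h0 z hz), smul_eq_mul]


end Crest.Agent.N250.Tb

end
end

-- ▼ part N250/Tb/J

/-!
# Row 250, tube calculus (helper80): change of variables along the foot point map (leaf J)
-/

set_option autoImplicit false
open MeasureTheory Set Filter Topology Function
open scoped ContDiff InnerProductSpace ENNReal
open Crest.GeometryTopology.MCF

noncomputable section

namespace Crest.Agent.N250.Tb

open R211

/-- `det (I + d A) = 1 + d H + d² K` at the foot point -/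
def dt (S : Mv) (t : ℝ) (pr : E → E) (sd : E → ℝ) (x : E) : ℝ :=
  1 + sd x * S.H (pr x, t) + sd x ^ 2 * S.K (pr x, t)

/-- the Jacobian of the foot point map restricted to `N` -/
def Jac (S : Mv) (t : ℝ) (pr : E → E) (sd : E → ℝ) (N : Mv) (q : ST) : ℝ :=
  |cs S t pr N q| / |dt S t pr sd q.1|

theorem det3_map (T : E →L[ℝ] E) (a b c : E) :
    det3 (T a) (T b) (T c) = det3 (T (ee 0)) (T (ee 1)) (T (ee 2)) * det3 a b c := by
  have e : ∀ (v : E) i, T v i = v 0 * T (ee 0) i + v 1 * T (ee 1) i + v 2 * T (ee 2) i :=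
    fun v i => by
      conv_lhs => rw [eq_sum_ee v]
      simp [Fin.sum_univ_three]
  simp only [det3, e a, e b, e c]
  ring

theorem det3_perp {n a b : E} (hn : ‖n‖ = 1) (ha : ⟪n, a⟫_ℝ = 0) (hb : ⟪n, b⟫_ℝ = 0) (c : E) :
    det3 a b c = ⟪n, c⟫_ℝ * det3 a b n := by
  have := det3_eq_zero_of_perp hn (real_inner_comm a n ▸ ha) (real_inner_comm b n ▸ hb)
    (inner_proj hn c)
  rw [proj_apply, real_inner_comm] at this
  simp only [det3, PiLp.sub_apply, PiLp.smul_apply, smul_eq_mul] at this ⊢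
  linear_combination this

theorem det3_sub (a b n : E) (r s : ℝ) : det3 (a - r • n) (b - s • n) n = det3 a b n := by
  simp only [det3, PiLp.sub_apply, PiLp.smul_apply, smul_eq_mul]; ring

section Det

variable {S : Mv} {p : ST}

theorem det_sh (hS : S.Reg) (hp : p ∈ S.M) :
    det3 (sh S p (ee 0)) (sh S p (ee 1)) (sh S p (ee 2)) = 0 :=
  det3_eq_zero_of_perp (hS.norm_n hp) ((real_inner_comm _ _).trans (n_sh hS hp _))
    ((real_inner_comm _ _).trans (n_sh hS hp _)) ((real_inner_comm _ _).trans (n_sh hS hp _))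

theorem det_one_add (hS : S.Reg) (hp : p ∈ S.M) (d : ℝ) :
    det3 (ee 0 + d • sh S p (ee 0)) (ee 1 + d • sh S p (ee 1)) (ee 2 + d • sh S p (ee 2)) =
      1 + d * S.H p + d ^ 2 * S.K p := by
  have h0 := det_sh hS hp
  simp only [det3, sh_ee hS hp] at h0
  simp only [det3, PiLp.add_apply, PiLp.smul_apply, smul_eq_mul, sh_ee hS hp, Mv.K, Mv.H_apply,
    Mv.A2_apply, Fin.sum_univ_three]
  rw [hS.A_symm hp 1 0, hS.A_symm hp 2 0, hS.A_symm hp 2 1] at *
  simp [ee]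
  linear_combination d ^ 3 * h0

/-- area distortion of `I + d A` on the tangent plane -/
theorem det3_one_add (hS : S.Reg) (hp : p ∈ S.M) (d : ℝ) (a b : E) :
    det3 (a + d • sh S p a) (b + d • sh S p b) (S.n p) =
      (1 + d * S.H p + d ^ 2 * S.K p) * det3 a b (S.n p) := by
  have := det3_map (ContinuousLinearMap.id ℝ E + d • sh S p) a b (S.n p)
  simp only [add_apply, ContinuousLinearMap.id_apply,
    smul_apply, sh_n hS hp, smul_zero, add_zero] at this
  rw [this, det_one_add hS hp]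

theorem exists_det3_ne {n : E} (hn : ‖n‖ = 1) : ∃ a b, det3 a b n ≠ 0 := by
  by_contra h
  push Not at h
  have h0 := h (ee 1) (ee 2)
  have h1 := h (ee 2) (ee 0)
  have h2 := h (ee 0) (ee 1)
  have := norm_sq_E3 n
  simp [det3, ee] at h0 h1 h2
  rw [hn, h0, h1, h2] at this
  norm_num at this

theorem H_sq_le (hS : S.Reg) (hp : p ∈ S.M) : S.H p ^ 2 ≤ 2 * S.A2 p := by
  have h0 := hS.nn hp
  have h1 := hS.A_n hp 0
  have h2 := hS.A_n hp 1
  have h3 := hS.A_n hp 2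
  have := Finset.sum_mul_sq_le_sq_mul_sq (Finset.univ : Finset (Fin 3 × Fin 3))
    (fun i => S.A i.1 i.2 p) fun i => (if i.1 = i.2 then 1 else 0) - S.nu i.1 p * S.nu i.2 p
  simp only [Fintype.sum_prod_type, Fin.sum_univ_three] at this h0 h1 h2 h3
  simp only [Mv.H_apply, Mv.A2_apply, Fin.sum_univ_three]
  norm_num [Fin.ext_iff] at this
  refine le_of_eq_of_le ?_ (this.trans_eq ?_)
  · congr 1
    linear_combination S.nu 0 p * h1 + S.nu 1 p * h2 + S.nu 2 p * h3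
  · symm
    linear_combination (S.A 0 0 p ^ 2 + S.A 0 1 p ^ 2 + S.A 0 2 p ^ 2 + (S.A 1 0 p ^ 2 +
      S.A 1 1 p ^ 2 + S.A 1 2 p ^ 2) + (S.A 2 0 p ^ 2 + S.A 2 1 p ^ 2 + S.A 2 2 p ^ 2)) *
      (1 - (S.nu 0 p * S.nu 0 p + S.nu 1 p * S.nu 1 p + S.nu 2 p * S.nu 2 p)) * h0

theorem abs_K_le (hS : S.Reg) (hp : p ∈ S.M) : |S.K p| ≤ S.A2 p / 2 := by
  have := H_sq_le hS hp
  rw [Mv.K, abs_le]
  constructor <;> nlinarith [sq_nonneg (S.H p)]

end Det

namespace Tub

variable {S N : Mv} {t s : ℝ} {W A : Set E} {pr : E → E} {sd : E → ℝ} {x : E} {p : ST}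

variable (h : Tub S t W pr sd) (hS : S.Reg)
include h hS

theorem dt_mul (hx : x ∈ W) (a b : E) :
    dt S t pr sd x * det3 (fderiv ℝ pr x a) (fderiv ℝ pr x b) (S.n (pr x, t)) =
      det3 a b (S.n (pr x, t)) := by
  rw [dt, ← det3_one_add hS (h.mem x hx), h.Dpr_eq hS hx, h.Dpr_eq hS hx, Mv.PL, Mv.PL, det3_sub]

theorem dt_ne (hx : x ∈ W) : dt S t pr sd x ≠ 0 := fun h0 => by
  obtain ⟨a, b, hab⟩ := exists_det3_ne (hS.norm_n (h.mem x hx))
  exact hab (by rw [← h.dt_mul hS hx, h0, zero_mul])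

omit h hS in
theorem dt_ge {κ : ℝ} (hκ : 0 ≤ κ) (hA : S.A2 (pr x, t) ≤ κ ^ 2) (hd : |sd x| * κ ≤ 1 / 2) :
    3 / 8 ≤ dt S t pr sd x := by
  have h1 : sd x ^ 2 * S.A2 (pr x, t) ≤ (|sd x| * κ) ^ 2 := by
    rw [mul_pow, sq_abs]; gcongr
  have h2 : (|sd x| * κ) ^ 2 ≤ (1 / 2) ^ 2 := by gcongr
  rw [dt, Mv.K]
  nlinarith [sq_nonneg (1 + sd x * S.H (pr x, t))]

theorem isJac (hN : N.Reg) (hp : p ∈ N.M) (hW : p.1 ∈ W) :
    IsJac (N.n p) (fderiv ℝ pr p.1) (Jac S t pr sd N p) := fun a b ha hb => by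
  have hy := h.mem _ hW
  rw [gramArea_perp (hS.norm_n hy) ((real_inner_comm _ _).trans (h.n_Dpr hS hW a))
      ((real_inner_comm _ _).trans (h.n_Dpr hS hW b)),
    gramArea_perp (hN.norm_n hp) ((real_inner_comm _ _).trans ha)
      ((real_inner_comm _ _).trans hb), Jac,
    div_mul_eq_mul_div, eq_div_iff (abs_ne_zero.2 (h.dt_ne hS hW)), ← abs_mul, ← abs_mul,
    mul_comm, h.dt_mul hS hW, det3_perp (hN.norm_n hp) ha hb]
  rfl

theorem sm_dt : ContDiffOn ℝ ∞ (dt S t pr sd) W := by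
  have h1 := h.sm_comp hS.sm_H
  exact (contDiffOn_const.add (h.ssd.mul h1)).add
    ((h.ssd.pow 2).mul (((h1.pow 2).sub (h.sm_comp hS.sm_A2)).div_const 2))

theorem cont_cs (hN : N.Reg) (s : ℝ) :
    ContinuousOn (fun x => cs S t pr N (x, s)) (N.sl s ∩ W) :=
  ((hN.sm_n.continuousOn.comp (Continuous.prodMk_left s).continuousOn fun _ hx => hx).mono
    inter_subset_left).inner ((h.sm_comp hS.sm_n).continuousOn.mono inter_subset_right)

theorem cont_Jac (hN : N.Reg) (s : ℝ) :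
    ContinuousOn (fun x => Jac S t pr sd N (x, s)) (N.sl s ∩ W) :=
  (h.cont_cs hS hN s).abs.div ((h.sm_dt hS).continuousOn.mono inter_subset_right).abs
    fun _ hx => abs_ne_zero.2 (h.dt_ne hS hx.2)

omit h hS in
theorem Jac_nonneg (q : ST) : 0 ≤ Jac S t pr sd N q := div_nonneg (abs_nonneg _) (abs_nonneg _)

variable (hN : N.Reg) (hA : MeasurableSet A) (hs : A ⊆ N.sl s ∩ W) (hi : InjOn pr A)
include hA hs hi

omit hS in
theorem meas_im : MeasurableSet (pr '' A) :=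
  hA.image_of_continuousOn_injOn (h.spr.continuousOn.mono fun _ hx => (hs hx).2) hi

omit hS in
theorem mu_im : (S.mu t).restrict (pr '' A) = (μHE[2] : Measure E).restrict (pr '' A) := by
  rw [Mv.mu, Measure.restrict_restrict (h.meas_im hA hs hi), inter_eq_left.2]
  rintro _ ⟨x, hx, rfl⟩
  exact h.mem x (hs hx).2

include hN

/-- leaf J, lower integrals -/
theorem lint_J (g : E → ℝ≥0∞) : ∫⁻ y in pr '' A, g y ∂S.mu t =
    ∫⁻ x in A, ENNReal.ofReal (Jac S t pr sd N (x, s)) * g (pr x) ∂N.mu s := by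
  rw [h.mu_im hA hs hi]
  exact area_map hN hA (fun _ hx => (hs hx).1)
    (fun x hx => (h.hasPr (hs hx).2).hasFDerivWithinAt) hi
    (fun x hx => h.isJac hS hN (p := (x, s)) (hs hx).1 (hs hx).2) g

/-- leaf J, Bochner integrals -/
theorem int_J (g : E → ℝ) : ∫ y in pr '' A, g y ∂S.mu t =
    ∫ x in A, Jac S t pr sd N (x, s) * g (pr x) ∂N.mu s := by
  rw [h.mu_im hA hs hi]
  exact area_int hN hA (fun _ hx => (hs hx).1)
    (fun x hx => (h.hasPr (hs hx).2).hasFDerivWithinAt) hi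
    (fun x hx => h.isJac hS hN (p := (x, s)) (hs hx).1 (hs hx).2) (fun _ _ => Jac_nonneg _)
    (((h.cont_Jac hS hN s).mono hs).aemeasurable hA) g


end Tub

end Crest.Agent.N250.Tb

end
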