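import Crest.Agent.N250.Re.Basic
import Crest.Agent.N250.Tb.Defs

-- ▼ part N250/Tb/T1
section

/-!
# Row 250, tube (helper50), part 1: nearest point, signed distance, the tube of a slice
-/

set_option autoImplicit false
open MeasureTheory Set Filter Topology Function
open scoped ContDiff InnerProductSpace
open Crest.GeometryTopology.MCF

noncomputable section

namespace Crest.Agent.N250.Tb

/-- a nearest point of the slice (unique on the tube) -/
def pr (S : Mv) (t : ℝ) (x : E) : E :=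
  Classical.epsilon fun y => y ∈ S.sl t ∧ ∀ z ∈ S.sl t, dist x y ≤ dist x z

/-- signed distance from the slice -/
def sd (S : Mv) (t : ℝ) (x : E) : ℝ := ⟪S.n (pr S t x, t), x - pr S t x⟫_ℝ

/-- the tube of radius `ρ` over the part of the slice in `U` -/
def tube (S : Mv) (t : ℝ) (U : Set E) (ρ : ℝ) : Set E :=
  {x | ∃ y ∈ S.sl t, y ∈ U ∧ ∃ s : ℝ, |s| < ρ ∧ x = y + s • S.n (y, t)}

variable {S : Mv} {t ρ s : ℝ} {x y z v : E} {U : Set E}

theorem norm_sub_smul_sq (w n : E) (hn : ‖n‖ = 1) (s : ℝ) :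
    ‖w - s • n‖ ^ 2 = ‖w‖ ^ 2 - 2 * s * ⟪n, w⟫_ℝ + s ^ 2 := by
  rw [norm_sub_sq_real, inner_smul_right, norm_smul, hn, real_inner_comm, Real.norm_eq_abs,
    mul_one, sq_abs]
  ring

/-- Federer's form of the reach condition -/
theorem fed (hn : ‖S.n (y, t)‖ = 1) (hρ : 0 < ρ) (h : S.Reach (y, t) ρ) (hz : z ∈ S.sl t) :
    2 * ρ * |⟪S.n (y, t), z - y⟫_ℝ| ≤ ‖z - y‖ ^ 2 := by
  obtain ⟨h1, h2⟩ := h z hz
  have e1 : dist z (y + ρ • S.n (y, t)) = ‖(z - y) - ρ • S.n (y, t)‖ := by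
    rw [dist_eq_norm]; congr 1; abel
  have e2 : dist z (y - ρ • S.n (y, t)) = ‖(z - y) - (-ρ) • S.n (y, t)‖ := by
    rw [dist_eq_norm, neg_smul]; congr 1; abel
  have a1 := pow_le_pow_left₀ hρ.le (h1.trans_eq e1) 2
  have a2 := pow_le_pow_left₀ hρ.le (h2.trans_eq e2) 2
  rw [norm_sub_smul_sq _ _ hn] at a1 a2
  rcases abs_cases ⟪S.n (y, t), z - y⟫_ℝ with h | h <;> rw [h.1] <;> nlinarith

theorem reach_of_fed (hn : ‖S.n (y, t)‖ = 1) (hρ : 0 < ρ)
    (h : ∀ z ∈ S.sl t, 2 * ρ * |⟪S.n (y, t), z - y⟫_ℝ| ≤ ‖z - y‖ ^ 2) : S.Reach (y, t) ρ := by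
  intro z hz
  have e1 : dist z (y + ρ • S.n (y, t)) = ‖(z - y) - ρ • S.n (y, t)‖ := by
    rw [dist_eq_norm]; congr 1; abel
  have e2 : dist z (y - ρ • S.n (y, t)) = ‖(z - y) - (-ρ) • S.n (y, t)‖ := by
    rw [dist_eq_norm, neg_smul]; congr 1; abel
  have h0 := h z hz
  have h1 := le_abs_self ⟪S.n (y, t), z - y⟫_ℝ
  have h2 := neg_abs_le ⟪S.n (y, t), z - y⟫_ℝ
  constructor
  · change ρ ≤ dist z (y + ρ • S.n (y, t))
    rw [e1]
    refine (pow_le_pow_iff_left₀ hρ.le (norm_nonneg _) two_ne_zero).1 ?_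
    rw [norm_sub_smul_sq _ _ hn]; nlinarith
  · change ρ ≤ dist z (y - ρ • S.n (y, t))
    rw [e2]
    refine (pow_le_pow_iff_left₀ hρ.le (norm_nonneg _) two_ne_zero).1 ?_
    rw [norm_sub_smul_sq _ _ hn]; nlinarith

/-- quantitative uniqueness of the nearest point -/
theorem near_sq (hn : ‖S.n (y, t)‖ = 1) (hρ : 0 < ρ) (h : S.Reach (y, t) ρ) (hz : z ∈ S.sl t)
    (s : ℝ) : ρ * s ^ 2 + (ρ - |s|) * ‖z - y‖ ^ 2 ≤ ρ * dist (y + s • S.n (y, t)) z ^ 2 := by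
  have e1 : dist (y + s • S.n (y, t)) z = ‖(z - y) - s • S.n (y, t)‖ := by
    rw [dist_comm, dist_eq_norm]; congr 1; abel
  rw [e1, norm_sub_smul_sq _ _ hn]
  have h1 := mul_le_mul_of_nonneg_left (fed hn hρ h hz) (abs_nonneg s)
  have h2 : s * ⟪S.n (y, t), z - y⟫_ℝ ≤ |s| * |⟪S.n (y, t), z - y⟫_ℝ| := by
    rw [← abs_mul]; exact le_abs_self _
  nlinarith

theorem dist_foot (hn : ‖S.n (y, t)‖ = 1) (s : ℝ) : dist (y + s • S.n (y, t)) y = |s| := by
  rw [dist_eq_norm, add_sub_cancel_left, norm_smul, hn, mul_one, Real.norm_eq_abs]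

theorem near_le (hn : ‖S.n (y, t)‖ = 1) (h : S.Reach (y, t) ρ) (hs : |s| < ρ) (hz : z ∈ S.sl t) :
    |s| ≤ dist (y + s • S.n (y, t)) z := by
  have hρ := (abs_nonneg s).trans_lt hs
  have h1 := near_sq hn hρ h hz s
  have h2 := mul_nonneg (sub_pos.2 hs).le (sq_nonneg ‖z - y‖)
  refine (pow_le_pow_iff_left₀ (abs_nonneg s) dist_nonneg two_ne_zero).1 ?_
  rw [sq_abs]
  nlinarith

theorem near_eq (hn : ‖S.n (y, t)‖ = 1) (h : S.Reach (y, t) ρ) (hs : |s| < ρ) (hz : z ∈ S.sl t)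
    (hd : dist (y + s • S.n (y, t)) z ≤ |s|) : z = y := by
  have hρ := (abs_nonneg s).trans_lt hs
  have h1 := near_sq hn hρ h hz s
  have h2 := pow_le_pow_left₀ dist_nonneg hd 2
  rw [sq_abs] at h2
  have h3 : (ρ - |s|) * ‖z - y‖ ^ 2 ≤ 0 := by nlinarith
  have h4 : ‖z - y‖ ^ 2 ≤ 0 := by
    by_contra h4
    exact absurd (mul_pos (sub_pos.2 hs) (not_le.1 h4)) (not_lt.2 h3)
  exact sub_eq_zero.1 (norm_eq_zero.1 (pow_eq_zero_iff two_ne_zero |>.1 (h4.antisymm (sq_nonneg _))))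

theorem pr_eq (hS : S.Reg) (hy : y ∈ S.sl t) (h : S.Reach (y, t) ρ) (hs : |s| < ρ) :
    pr S t (y + s • S.n (y, t)) = y := by
  have hn := hS.norm_n (p := (y, t)) hy
  have h1 := Classical.epsilon_spec (p := fun w => w ∈ S.sl t ∧ ∀ z ∈ S.sl t,
    dist (y + s • S.n (y, t)) w ≤ dist (y + s • S.n (y, t)) z)
    ⟨y, hy, fun z hz => by rw [dist_foot hn]; exact near_le hn h hs hz⟩
  exact near_eq hn h hs h1.1 ((h1.2 y hy).trans_eq (dist_foot hn s))

theorem sd_eq (hS : S.Reg) (hy : y ∈ S.sl t) (h : S.Reach (y, t) ρ) (hs : |s| < ρ) :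
    sd S t (y + s • S.n (y, t)) = s := by
  rw [sd, pr_eq hS hy h hs, add_sub_cancel_left, inner_smul_right, hS.inner_n (p := (y, t)) hy,
    mul_one]

/-- a curve in the slice with a prescribed tangent -/
theorem exists_curve (hS : S.Reg) (hy : y ∈ S.sl t) (hv : ⟪S.n (y, t), v⟫_ℝ = 0) :
    ∃ c : ℝ → E, c 0 = y ∧ HasDerivAt c v 0 ∧ ∀ᶠ τ in 𝓝 0, c τ ∈ S.sl t := by
  obtain ⟨W, π, hr⟩ := hS.exists_retr (p := (y, t)) hy
  have d := ((hr.sm.contDiffAt (hr.isOpen.mem_nhds hr.mem)).differentiableAt (by simp)).hasFDerivAt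
  have l : HasDerivAt (fun τ : ℝ => ((y + τ • v, t) : ST)) (v, 0) 0 := by
    simpa using (((hasDerivAt_id (0 : ℝ)).smul_const v).const_add y).prodMk (hasDerivAt_const 0 t)
  have d2 := HasFDerivAt.comp_hasDerivAt_of_eq 0 d l (by simp)
  rw [hr.der (v, 0) (by simp [Mv.Tg, hv])] at d2
  refine ⟨fun τ => (π (y + τ • v, t)).1, ?_, d2.fst, ?_⟩
  · simp [hr.fix _ hr.mem hy]
  · have : ∀ᶠ τ in 𝓝 (0 : ℝ), ((y + τ • v, t) : ST) ∈ W :=
      l.continuousAt.preimage_mem_nhds (by simpa using hr.isOpen.mem_nhds hr.mem)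
    filter_upwards [this] with τ hτ
    have h1 := hr.maps hτ
    have h2 : (π (y + τ • v, t)).2 = t := hr.time _ hτ
    change ((π (y + τ • v, t)).1, t) ∈ S.M
    have h3 : (((π (y + τ • v, t)).1, t) : ST) = π (y + τ • v, t) := Prod.ext rfl h2.symm
    rw [h3]; exact h1

/-- first order condition at a nearest point -/
theorem perp_of_near (hS : S.Reg) (hy : y ∈ S.sl t)
    (h : ∀ᶠ z in 𝓝 y, z ∈ S.sl t → dist x y ≤ dist x z) :
    x = y + ⟪S.n (y, t), x - y⟫_ℝ • S.n (y, t) := by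
  have hv : ⟪S.n (y, t), S.PL (y, t) (x - y)⟫_ℝ = 0 := by
    simpa [Mv.Tg] using hS.tg_PL (p := (y, t)) hy (x - y)
  obtain ⟨c, c0, c1, c2⟩ := exists_curve hS hy hv
  have d := (c1.const_sub x).norm_sq
  have m : IsLocalMin (fun τ => ‖x - c τ‖ ^ 2) 0 := by
    have h' : ∀ᶠ τ in 𝓝 0, c τ ∈ S.sl t → dist x y ≤ dist x (c τ) :=
      c1.continuousAt.tendsto.eventually (by rw [c0]; exact h)
    filter_upwards [h', c2] with τ a b
    rw [c0, ← dist_eq_norm, ← dist_eq_norm]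
    exact pow_le_pow_left₀ dist_nonneg (a b) 2
  have h0 := m.hasDerivAt_eq_zero d
  rw [c0, inner_neg_right] at h0
  have h1 : ⟪S.PL (y, t) (x - y), S.PL (y, t) (x - y)⟫_ℝ = 0 := by
    conv_lhs => rw [Mv.PL, inner_sub_left, inner_smul_left, ← Mv.PL, hv]
    simp only [mul_zero, sub_zero]; linarith
  have h2 := inner_self_eq_zero.1 h1
  rw [Mv.PL, sub_eq_zero] at h2
  rw [← h2]; abel

/-- reach near `y` bounds the derivative of any ambient extension of the normal -/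
theorem curv_le (hS : S.Reg) (hρ : 0 < ρ) (hy : y ∈ S.sl t) {N : E → E} {L : E →L[ℝ] E}
    (hN : HasFDerivAt N L y)
    (h : ∀ᶠ z in 𝓝 y, z ∈ S.sl t → N z = S.n (z, t) ∧ S.Reach (z, t) ρ)
    (hv : ⟪S.n (y, t), v⟫_ℝ = 0) : ρ * |⟪L v, v⟫_ℝ| ≤ ‖v‖ ^ 2 := by
  obtain ⟨c, c0, c1, c2⟩ := exists_curve hS hy hv
  have d := HasFDerivAt.comp_hasDerivAt_of_eq 0 hN c1 c0.symm
  have t1 := hasDerivAt_iff_tendsto_slope.1 c1
  have t2 := hasDerivAt_iff_tendsto_slope.1 d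
  refine le_of_tendsto_of_tendsto ((t2.inner t1).abs.const_mul ρ) (t1.norm.pow 2) ?_
  have h' : ∀ᶠ τ in 𝓝 0, c τ ∈ S.sl t → N (c τ) = S.n (c τ, t) ∧ S.Reach (c τ, t) ρ :=
    c1.continuousAt.tendsto.eventually (by rw [c0]; exact h)
  have h0 := h.self_of_nhds hy
  filter_upwards [nhdsWithin_le_nhds h', nhdsWithin_le_nhds c2] with τ a b
  have f1 := fed (hS.norm_n (p := (y, t)) hy) hρ h0.2 b
  have f2 := fed (hS.norm_n (p := (c τ, t)) b) hρ (a b).2 hy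
  rw [← neg_sub (c τ), inner_neg_right, abs_neg, norm_neg] at f2
  have f3 := abs_sub ⟪S.n (c τ, t), c τ - y⟫_ℝ ⟪S.n (y, t), c τ - y⟫_ℝ
  simp only [slope, vsub_eq_sub, comp_apply, c0, (a b).1, h0.1, inner_smul_left, inner_smul_right,
    norm_smul, conj_trivial, abs_mul, Real.norm_eq_abs, inner_sub_left, mul_pow]
  have f4 : ρ * |⟪S.n (c τ, t), c τ - y⟫_ℝ - ⟪S.n (y, t), c τ - y⟫_ℝ| ≤ ‖c τ - y‖ ^ 2 := by
    nlinarith
  nlinarith [mul_le_mul_of_nonneg_left f4 (sq_nonneg |(τ - 0)⁻¹|)]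

end Crest.Agent.N250.Tb

end
end

-- ▼ part N250/Tb/T2

/-!
# Row 250, tube (helper50), part 2: the tube is open, `pr` and `sd` are smooth on it
-/

set_option autoImplicit false
open MeasureTheory Set Filter Topology Function
open scoped ContDiff InnerProductSpace
open Crest.GeometryTopology.MCF

noncomputable section

namespace Crest.Agent.N250.Tb

variable {S : Mv} {t ρ s : ℝ} {x y z v : E} {U : Set E}

theorem perp_unit {m : E → E} {L : E →L[ℝ] E} (hm : HasFDerivAt m L x)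
    (h : ∀ᶠ w in 𝓝 x, ‖m w‖ = 1) (v : E) : ⟪m x, L v⟫_ℝ = 0 := by
  have d1 := hm.norm_sq
  have d2 : HasFDerivAt (fun w => ‖m w‖ ^ 2) (0 : E →L[ℝ] ℝ) x :=
    (hasFDerivAt_const (1 : ℝ) x).congr_of_eventuallyEq (h.mono fun w hw => by simp [hw])
  simpa using congrArg (fun T : E →L[ℝ] ℝ => T v) (d1.unique d2)

/-- the slice of a defining function -/
theorem exists_sl (hS : S.Reg) (hy : y ∈ S.sl t) : ∃ (W : Set E) (f : E → ℝ) (N : E → E),
    IsOpen W ∧ y ∈ W ∧ ContDiffOn ℝ ∞ f W ∧ ContDiffOn ℝ ∞ N W ∧ (∀ z ∈ W, z ∈ S.sl t ↔ f z = 0) ∧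
    (∀ z ∈ W, ‖N z‖ = 1) ∧ (∀ z ∈ W, z ∈ S.sl t → N z = S.n (z, t)) ∧
    ∀ z ∈ W, z ∈ S.sl t → ∀ v, fderiv ℝ f z v = 0 → ⟪S.n (z, t), v⟫_ℝ = 0 := by
  obtain ⟨W, φ, hW, hL⟩ := hS (y, t) hy
  have hι : ContDiff ℝ ∞ fun w : E => ((w, t) : ST) := contDiff_id.prodMk contDiff_const
  have m : MapsTo (fun w : E => ((w, t) : ST)) {w | (w, t) ∈ W} W := fun _ h => h
  have a1 := hL.sm.comp hι.contDiffOn m
  have a2 := hL.sm_n.comp hι.contDiffOn m
  refine ⟨{w | (w, t) ∈ W}, fun w => φ (w, t), fun w => ‖gradX φ w t‖⁻¹ • gradX φ w t,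
    hL.isOpen.preimage hι.continuous, hW, a1, a2, fun z hz => hL.mem _ hz, fun z hz => ?_,
    fun z hz hM => (hL.n_eq _ hz hM).symm, fun z hz hM v hv => ?_⟩
  · rw [norm_smul, norm_inv, norm_norm, inv_mul_cancel₀ (hL.norm_pos hz).ne']
  · have h1 : HasFDerivAt (fun w : E => φ (w, t))
        ((fderiv ℝ φ (z, t)).comp (ContinuousLinearMap.inl ℝ E ℝ)) z :=
      HasFDerivAt.comp z (f := fun w : E => ((w, t) : ST)) (hL.diffAt hz).hasFDerivAt
        (hasFDerivAt_prodMk_left z t)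
    rw [h1.fderiv] at hv
    simpa [Mv.Tg] using (hL.tg_iff (w := (v, 0)) hz hM).2 hv

theorem loc_smooth (hS : S.Reg) (hU : IsOpen U) (hR : ∀ y ∈ S.sl t, y ∈ U → S.Reach (y, t) ρ)
    (hx : x ∈ tube S t U ρ) :
    tube S t U ρ ∈ 𝓝 x ∧ ContDiffAt ℝ ∞ (pr S t) x ∧ ContDiffAt ℝ ∞ (sd S t) x := by
  obtain ⟨y, hy, hyU, s, hs, rfl⟩ := hx
  have hρ := (abs_nonneg s).trans_lt hs
  obtain ⟨W, f, N, hW, hyW, hf, hN, hmem, hN1, hNn, hker⟩ := exists_sl hS hy
  let g : ST → ST := fun q => (q.1 + q.2 • N q.1, f q.1)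
  let O : Set ST := {q | q.1 ∈ W ∩ U ∧ |q.2| < ρ}
  have hO : IsOpen O := ((hW.inter hU).preimage continuous_fst).inter
    (isOpen_lt continuous_snd.abs continuous_const)
  have hg : ContDiffOn ℝ ∞ g O :=
    (contDiffOn_fst.add (contDiffOn_snd.smul (hN.comp contDiffOn_fst fun _ h => h.1.1))).prodMk
      (hf.comp contDiffOn_fst fun _ h => h.1.1)
  have dN := ((hN.contDiffAt (hW.mem_nhds hyW)).differentiableAt (by simp)).hasFDerivAt
  have df := ((hf.contDiffAt (hW.mem_nhds hyW)).differentiableAt (by simp)).hasFDerivAt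
  have hi : Injective (fderiv ℝ g (y, s)) := by
    have d1 : HasFDerivAt (Prod.fst : ST → E) (ContinuousLinearMap.fst ℝ E ℝ) (y, s) :=
      hasFDerivAt_fst
    have d2 : HasFDerivAt (Prod.snd : ST → ℝ) (ContinuousLinearMap.snd ℝ E ℝ) (y, s) :=
      hasFDerivAt_snd
    have d := (d1.add (d2.smul (HasFDerivAt.comp (y, s) dN d1))).prodMk
      (HasFDerivAt.comp (y, s) df d1)
    rw [show fderiv ℝ g (y, s) = _ from d.fderiv, injective_iff_map_eq_zero]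
    rintro ⟨v, σ⟩ h
    have h1 : v + (s • fderiv ℝ N y v + σ • N y) = 0 := by simpa using congrArg Prod.fst h
    have h2 : fderiv ℝ f y v = 0 := by simpa using congrArg Prod.snd h
    have h3 := hker y hyW hy v h2
    have h4 := perp_unit dN (eventually_of_mem (hW.mem_nhds hyW) hN1) v
    have h5 := congrArg (fun w => ⟪N y, w⟫_ℝ) h1
    rw [hNn y hyW hy] at h4 h5
    simp only [inner_add_right, inner_smul_right, h3, h4, hS.inner_n (p := (y, t)) hy,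
      inner_zero_right, mul_zero, zero_add, mul_one] at h5
    have h6 := congrArg (fun w => ⟪w, v⟫_ℝ) h1
    simp only [h5, zero_smul, add_zero, inner_add_left, inner_smul_left, conj_trivial,
      inner_zero_left, real_inner_self_eq_norm_sq] at h6
    have h7 := curv_le hS hρ hy dN (by
      filter_upwards [hW.mem_nhds hyW, hU.mem_nhds hyU] with z a b c
        using ⟨hNn z a c, hR z c b⟩) h3
    have h8 : ‖v‖ ^ 2 ≤ |s| * |⟪fderiv ℝ N y v, v⟫_ℝ| := by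
      rw [← abs_mul]; linarith [neg_abs_le (s * ⟪fderiv ℝ N y v, v⟫_ℝ)]
    have h9 : ‖v‖ ^ 2 ≤ 0 := by
      by_contra h9
      nlinarith [mul_le_mul_of_nonneg_left h7 (abs_nonneg s), mul_le_mul_of_nonneg_left h8 hρ.le,
        mul_pos (sub_pos.2 hs) (not_le.1 h9)]
    exact Prod.ext (norm_eq_zero.1 (pow_eq_zero_iff two_ne_zero |>.1 (h9.antisymm (sq_nonneg _)))) h5
  obtain ⟨G, G1, G2, G3, G4⟩ := exists_localDiffeo hO hg (z := (y, s)) ⟨⟨hyW, hyU⟩, hs⟩ hi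
  have e0 : G (y, s) = (y + s • S.n (y, t), 0) := by
    rw [G3]; exact Prod.ext (by simp [g, hNn y hyW hy]) ((hmem y hyW).1 hy)
  have hT : ((y + s • S.n (y, t), 0) : ST) ∈ G.target := e0 ▸ G.map_source G1
  have hι : ContDiff ℝ ∞ fun w : E => ((w, 0) : ST) := contDiff_id.prodMk contDiff_const
  have hk : ContDiffAt ℝ ∞ (fun w : E => G.symm (w, 0)) (y + s • S.n (y, t)) :=
    ContDiffAt.comp _ (g := G.symm) (G4.contDiffAt (G.open_target.mem_nhds hT)) hι.contDiffAt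
  have ev : ∀ᶠ w in 𝓝 (y + s • S.n (y, t)), w ∈ tube S t U ρ ∧ pr S t w = (G.symm (w, 0)).1 ∧
      sd S t w = (G.symm (w, 0)).2 := by
    filter_upwards [hι.continuous.continuousAt.preimage_mem_nhds (G.open_target.mem_nhds hT)]
      with w hw
    have a1 := G2 (G.map_target hw)
    have a2 := G.right_inv hw
    rw [G3] at a2
    generalize G.symm (w, 0) = q at a1 a2
    have a3 : q.1 ∈ S.sl t := (hmem _ a1.1.1).2 (congrArg Prod.snd a2)
    have a4 : w = q.1 + q.2 • S.n (q.1, t) := by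
      rw [← hNn _ a1.1.1 a3]; exact (congrArg Prod.fst a2).symm
    refine ⟨⟨q.1, a3, a1.1.2, q.2, a1.2, a4⟩, ?_, ?_⟩
    · rw [a4]; exact pr_eq hS a3 (hR _ a3 a1.1.2) a1.2
    · rw [a4]; exact sd_eq hS a3 (hR _ a3 a1.1.2) a1.2
  exact ⟨ev.mono fun _ h => h.1, hk.fst.congr_of_eventuallyEq (ev.mono fun _ h => h.2.1),
    hk.snd.congr_of_eventuallyEq (ev.mono fun _ h => h.2.2)⟩

section
variable (hS : S.Reg) (hR : ∀ y ∈ S.sl t, y ∈ U → S.Reach (y, t) ρ)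
include hS hR

theorem isOpen_tube (hU : IsOpen U) : IsOpen (tube S t U ρ) :=
  isOpen_iff_mem_nhds.2 fun _ hx => (loc_smooth hS hU hR hx).1

theorem sm_pr (hU : IsOpen U) : ContDiffOn ℝ ∞ (pr S t) (tube S t U ρ) :=
  fun _ hx => (loc_smooth hS hU hR hx).2.1.contDiffWithinAt

theorem sm_sd (hU : IsOpen U) : ContDiffOn ℝ ∞ (sd S t) (tube S t U ρ) :=
  fun _ hx => (loc_smooth hS hU hR hx).2.2.contDiffWithinAt

theorem pr_mem (hx : x ∈ tube S t U ρ) : pr S t x ∈ S.sl t := by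
  obtain ⟨y, hy, hU, s, hs, rfl⟩ := hx
  rwa [pr_eq hS hy (hR y hy hU) hs]

theorem pr_memU (hx : x ∈ tube S t U ρ) : pr S t x ∈ U := by
  obtain ⟨y, hy, hU, s, hs, rfl⟩ := hx
  rwa [pr_eq hS hy (hR y hy hU) hs]

theorem pr_reach (hx : x ∈ tube S t U ρ) : S.Reach (pr S t x, t) ρ :=
  hR _ (pr_mem hS hR hx) (pr_memU hS hR hx)

theorem abs_sd_lt (hx : x ∈ tube S t U ρ) : |sd S t x| < ρ := by
  obtain ⟨y, hy, hU, s, hs, rfl⟩ := hx
  rwa [sd_eq hS hy (hR y hy hU) hs]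

theorem dec (hx : x ∈ tube S t U ρ) : x = pr S t x + sd S t x • S.n (pr S t x, t) := by
  obtain ⟨y, hy, hU, s, hs, rfl⟩ := hx
  rw [sd_eq hS hy (hR y hy hU) hs, pr_eq hS hy (hR y hy hU) hs]

theorem dist_pr (hx : x ∈ tube S t U ρ) : dist x (pr S t x) = |sd S t x| := by
  conv_lhs => enter [1]; rw [dec hS hR hx]
  exact dist_foot (hS.norm_n (p := (_, t)) (pr_mem hS hR hx)) _

theorem abs_sd_le (hx : x ∈ tube S t U ρ) (hz : z ∈ S.sl t) : |sd S t x| ≤ dist x z := by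
  conv_rhs => enter [1]; rw [dec hS hR hx]
  exact near_le (hS.norm_n (p := (_, t)) (pr_mem hS hR hx)) (pr_reach hS hR hx)
    (abs_sd_lt hS hR hx) hz


theorem abs_sd_eq (hx : x ∈ tube S t U ρ) : |sd S t x| = Metric.infDist x (S.sl t) :=
  le_antisymm ((Metric.le_infDist ⟨_, pr_mem hS hR hx⟩).2 fun _ hz => abs_sd_le hS hR hx hz)
    ((Metric.infDist_le_dist_of_mem (pr_mem hS hR hx)).trans_eq (dist_pr hS hR hx))

theorem mem_tube_self (hρ : 0 < ρ) (hx : x ∈ S.sl t) (hU : x ∈ U) :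
    x ∈ tube S t U ρ ∧ pr S t x = x ∧ sd S t x = 0 := by
  have h0 : |(0 : ℝ)| < ρ := by simpa using hρ
  refine ⟨⟨x, hx, hU, 0, h0, by simp⟩, ?_, ?_⟩
  · simpa using pr_eq hS hx (hR x hx hU) h0
  · simpa using sd_eq hS hx (hR x hx hU) h0

theorem sd_eq_zero_iff (hx : x ∈ tube S t U ρ) : sd S t x = 0 ↔ x ∈ S.sl t := by
  refine ⟨fun h => ?_, fun h => abs_nonpos_iff.1 ((abs_sd_le hS hR hx h).trans_eq (dist_self x))⟩
  have := dec hS hR hx
  rw [h, zero_smul, add_zero] at this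
  rw [this]; exact pr_mem hS hR hx

/-- the tube satisfies the abstract interface -/
theorem tub (hU : IsOpen U) : Tub S t (tube S t U ρ) (pr S t) (sd S t) :=
  ⟨isOpen_tube hS hR hU, sm_pr hS hR hU, sm_sd hS hR hU, fun _ => pr_mem hS hR, fun _ => dec hS hR⟩


end

/-- covering lemma: points near a relatively closed slice lie in the tube -/
theorem mem_tube (hS : S.Reg) (hC : ∀ y ∈ closure (S.sl t), y ∈ U → y ∈ S.sl t) (hz : z ∈ S.sl t)
    (h1 : dist x z < ρ) (h2 : Metric.closedBall x (dist x z) ⊆ U) : x ∈ tube S t U ρ := by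
  have hK : IsCompact (closure (S.sl t) ∩ Metric.closedBall x (dist x z)) :=
    (isCompact_closedBall _ _).inter_left isClosed_closure
  have hzK : z ∈ closure (S.sl t) ∩ Metric.closedBall x (dist x z) :=
    ⟨subset_closure hz, by simp [dist_comm]⟩
  obtain ⟨y, hy, hm⟩ := hK.exists_isMinOn ⟨z, hzK⟩
    (continuous_const.dist continuous_id : Continuous fun w => dist x w).continuousOn
  have hyS := hC y hy.1 (h2 hy.2)
  have h3 : dist x y ≤ dist x z := hm hzK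
  have h4 := perp_of_near hS hyS (x := x) (Eventually.of_forall fun w hw => by
    by_cases h : dist x w ≤ dist x z
    · exact hm ⟨subset_closure hw, by simpa [dist_comm] using h⟩
    · exact h3.trans (not_le.1 h).le)
  refine ⟨y, hyS, h2 hy.2, _, ?_, h4⟩
  rw [← dist_foot (hS.norm_n (p := (y, t)) hyS), ← h4]
  exact h3.trans_lt h1

/-- properness in spacetime gives the closedness hypothesis of `mem_tube` -/
theorem cl_of_proper {Ω : Set ST} (h : S.Proper Ω) (hU : ∀ y ∈ U, (y, t) ∈ Ω) :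
    ∀ y ∈ closure (S.sl t), y ∈ U → y ∈ S.sl t := fun y hy hyU =>
  h (y, t) (map_mem_closure (f := fun w : E => ((w, t) : ST)) (by fun_prop) hy fun _ hw => hw)
    (hU y hyU)


end Crest.Agent.N250.Tb

end
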