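import Crest.Agent.N250.Tb.GR

/-!
# Row 250, tube (helper50), SURJ: transversal segments meet a nearby surface
-/

set_option autoImplicit false
open MeasureTheory Set Filter Topology Function
open scoped ContDiff InnerProductSpace
open Crest.GeometryTopology.MCF

noncomputable section

namespace Crest.Agent.N250.Tb

variable {S N : Mv} {t t' ρ s δ d d' : ℝ} {x x' y y' z v : E} {U V : Set E}

/-- a transversal segment through a point near the slice meets the slice -/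
theorem hit (hN : N.Reg) (hU : IsOpen U) (hR : ∀ y ∈ N.sl t, y ∈ U → N.Reach (y, t) ρ)
    (hC : ∀ y ∈ closure (N.sl t), y ∈ U → y ∈ N.sl t) (hx : x ∈ N.sl t) (hd : dist y x ≤ δ)
    (hρ : 0 < ρ) (hδ : δ ≤ ρ / 50) (hB : Metric.closedBall x (10 * δ) ⊆ U) (hv : ‖v‖ = 1)
    (h : 1 / 2 ≤ |⟪N.n (x, t), v⟫_ℝ|) : ∃ s, |s| ≤ 4 * δ ∧ y + s • v ∈ N.sl t := by
  have h0 := dist_nonneg.trans hd
  wlog hp : 1 / 2 ≤ ⟪N.n (x, t), v⟫_ℝ generalizing v
  · have h' : 1 / 2 ≤ ⟪N.n (x, t), -v⟫_ℝ := by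
      rw [inner_neg_right]; exact (le_abs.1 h).resolve_left hp
    obtain ⟨s, a, b⟩ := this (v := -v) (by rwa [norm_neg]) (h'.trans (le_abs_self _)) h'
    exact ⟨-s, by rwa [abs_neg], by simpa using b⟩
  rw [dist_eq_norm] at hd
  have T : ∀ s ∈ Icc (-(4 * δ)) (4 * δ), y + s • v ∈ tube N t U ρ ∧
      |sd N t (y + s • v) - ⟪N.n (x, t), y + s • v - x⟫_ℝ| ≤ 2 * (5 * δ) ^ 2 / ρ := fun s hs =>
    sd_taylor hN hU hR hC hx (by
      rw [add_sub_right_comm]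
      refine (norm_add_le _ _).trans ?_
      rw [norm_smul, hv, mul_one, Real.norm_eq_abs]
      linarith [abs_le.2 hs]) (by linarith) (by rwa [← mul_assoc, show (2 : ℝ) * 5 = 10 by norm_num])
  have c : ContinuousOn (fun s : ℝ => sd N t (y + s • v)) (Icc (-(4 * δ)) (4 * δ)) :=
    (sm_sd hN hR hU).continuousOn.comp (by fun_prop) fun s hs => (T s hs).1
  have b1 : 2 * (5 * δ) ^ 2 / ρ ≤ δ := by rw [div_le_iff₀ hρ]; nlinarith
  have b2 : |⟪N.n (x, t), y - x⟫_ℝ| ≤ δ :=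
    (abs_real_inner_le_norm _ _).trans (by rw [hN.norm_n (p := (x, t)) hx, one_mul]; exact hd)
  have hI : -(4 * δ) ≤ 4 * δ := by linarith
  have e1 := abs_le.1 ((T _ (left_mem_Icc.2 hI)).2.trans b1)
  have e2 := abs_le.1 ((T _ (right_mem_Icc.2 hI)).2.trans b1)
  rw [add_sub_right_comm, inner_add_right, inner_smul_right] at e1 e2
  obtain ⟨s, hs, e⟩ := intermediate_value_Icc hI c (show (0 : ℝ) ∈ Icc _ _ from
    ⟨by nlinarith [abs_le.1 b2], by nlinarith [abs_le.1 b2]⟩)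
  exact ⟨s, abs_le.2 hs, (sd_eq_zero_iff hN hR (T s hs).1).1 e⟩

/-- SURJ: if `S` near `y` is `δ`-close to `N`, the normal segment of `S` at `y` meets `N` -/
theorem surj (hS : S.Reg) (hV : IsOpen V) (hRS : ∀ y ∈ S.sl t, y ∈ V → S.Reach (y, t) ρ)
    (hCS : ∀ y ∈ closure (S.sl t), y ∈ V → y ∈ S.sl t) (hN : N.Reg) (hU : IsOpen U)
    (hR : ∀ y ∈ N.sl t', y ∈ U → N.Reach (y, t') ρ)
    (hC : ∀ y ∈ closure (N.sl t'), y ∈ U → y ∈ N.sl t') (h0 : 0 < δ) (hδ : δ ≤ ρ / 100)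
    (hy : y ∈ S.sl t) (hBV : Metric.closedBall y (2 * √(δ * ρ)) ⊆ V)
    (hBU : Metric.closedBall y (11 * δ) ⊆ U)
    (hcl : ∀ w ∈ S.sl t, w ∈ Metric.closedBall y (2 * √(δ * ρ)) → ∃ z ∈ N.sl t', dist w z ≤ δ) :
    ∃ x ∈ N.sl t', x ∈ tube S t V ρ ∧ pr S t x = y ∧ |sd S t x| ≤ 4 * δ := by
  have hρ : 0 < ρ := by linarith
  have hm : y ∈ Metric.closedBall y (2 * √(δ * ρ)) := Metric.mem_closedBall_self (by positivity)
  obtain ⟨z, hz, dz⟩ := hcl y hy hm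
  have m : y ∈ tube N t' U ρ := mem_tube hN hC hz (by linarith)
    ((Metric.closedBall_subset_closedBall (by linarith)).trans hBU)
  have k := (abs_sd_le hN hR m hz).trans dz
  have g := gr hN hS hV hRS hCS hy h0 (by linarith) hBV hcl (pr_mem hN hR m) (pr_reach hN hR m) k
    (dec hN hR m)
  have a2 : 25 * δ / ρ ≤ 1 / 4 := by rw [div_le_iff₀ hρ]; linarith
  have dp := (dist_pr hN hR m).trans_le k
  obtain ⟨s, hs, hx⟩ := hit hN hU hR hC (pr_mem hN hR m) dp hρ (by linarith)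
    ((Metric.closedBall_subset_closedBall' (by rw [dist_comm]; linarith)).trans hBU)
    (hS.norm_n (p := (y, t)) hy) (by
      rw [real_inner_comm]
      exact (pow_le_pow_iff_left₀ (by norm_num) (abs_nonneg _) two_ne_zero).1
        (by rw [sq_abs]; linarith))
  have hs' : |s| < ρ := by linarith
  exact ⟨_, hx, ⟨y, hy, hBV hm, s, hs', rfl⟩, pr_eq hS hy (hRS y hy (hBV hm)) hs',
    by rwa [sd_eq hS hy (hRS y hy (hBV hm)) hs']⟩


end Crest.Agent.N250.Tb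

end
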