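import Crest.Agent.N250.Sg.Cut
import Crest.Agent.N250.Tb.Pair
import Crest.Agent.N250.R.Stm
import Crest.Agent.N250.Sg.Sup
import Crest.Agent.N250.T.Reach
import Crest.Agent.N250.Sg.Stm
import Crest.Agent.N250.Tb.Surj

-- ▼ part N250/Sg/Core
section

/-!
# Row 250, static Gaussian estimate (helper9), part 3: the energy inequality for the height
-/

set_option autoImplicit false
open MeasureTheory Set Filter Topology
open scoped ContDiff InnerProductSpace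
open Crest.GeometryTopology.MCF

noncomputable section

namespace Crest.Agent.N250.Sg

variable {F : Mv} {t : ℝ} {p : ST}

/-- cut-off: `1` on `B_{r-1}`, `0` off `B_{r-1/2}` -/
def cut2 (r : ℝ) (p : ST) : ℝ := Real.smoothTransition (((r - 1 / 2) ^ 2 - ‖p.1‖ ^ 2) / (r - 3 / 4))

theorem contDiff_cut2 (r : ℝ) : ContDiff ℝ ∞ (cut2 r) :=
  Real.smoothTransition.contDiff.comp ((contDiff_const.sub contDiff_nsq).div_const _)

theorem cut2_sq_le (r : ℝ) (p : ST) : cut2 r p ^ 2 ≤ 1 := by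
  have := Real.smoothTransition.nonneg (((r - 1 / 2) ^ 2 - ‖p.1‖ ^ 2) / (r - 3 / 4))
  have := Real.smoothTransition.le_one (((r - 1 / 2) ^ 2 - ‖p.1‖ ^ 2) / (r - 3 / 4))
  rw [cut2]; nlinarith

theorem cut2_one {r : ℝ} (hr : 1 ≤ r) (h : ‖p.1‖ ≤ r - 1) : cut2 r p = 1 := by
  refine Real.smoothTransition.one_of_one_le ?_
  rw [le_div_iff₀ (by linarith)]
  nlinarith [norm_nonneg p.1]

theorem cut2_zero {r : ℝ} (hr : 1 ≤ r) (h : r - 1 / 2 ≤ ‖p.1‖) : cut2 r p = 0 := by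
  refine Real.smoothTransition.zero_of_nonpos (div_nonpos_of_nonpos_of_nonneg ?_ (by linarith))
  nlinarith

theorem gam_cut2 (hF : F.Reg) (hp : p ∈ F.M) (r : ℝ) : F.gam (cut2 r) (cut2 r) p =
    deriv Real.smoothTransition (((r - 1 / 2) ^ 2 - ‖p.1‖ ^ 2) / (r - 3 / 4)) ^ 2 *
      (4 * (‖p.1‖ ^ 2 - F.xn 0 p ^ 2) / (r - 3 / 4) ^ 2) := by
  have h1 : HasDerivAt (fun s => Real.smoothTransition (((r - 1 / 2) ^ 2 - s) / (r - 3 / 4)))
      (deriv Real.smoothTransition (((r - 1 / 2) ^ 2 - ‖p.1‖ ^ 2) / (r - 3 / 4)) *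
        (-1 / (r - 3 / 4))) (‖p.1‖ ^ 2) := by
    refine HasDerivAt.comp (h₂ := Real.smoothTransition) _
      ((Real.smoothTransition.contDiff (n := 1)).differentiable (by simp) _).hasDerivAt ?_
    simpa using ((hasDerivAt_id (‖p.1‖ ^ 2)).const_sub ((r - 1 / 2) ^ 2)).div_const (r - 3 / 4)
  have e : ∀ a, F.D a (cut2 r) p = _ := fun a => D_rad hF hp h1 a
  have e2 := sum_x_nu F p
  have e3 := sum_x_sq p.1
  have e4 := hF.nn hp
  simp only [Mv.gam_apply, e]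
  set d := deriv Real.smoothTransition (((r - 1 / 2) ^ 2 - ‖p.1‖ ^ 2) / (r - 3 / 4))
  generalize r - 3 / 4 = m
  simp only [Fin.sum_univ_three, div_eq_mul_inv, ← inv_pow] at e2 e3 e4 ⊢
  linear_combination (4 * d ^ 2 * m⁻¹ ^ 2) * e3 - (8 * d ^ 2 * m⁻¹ ^ 2 * F.xn 0 p) * e2 +
    (4 * d ^ 2 * m⁻¹ ^ 2 * F.xn 0 p ^ 2) * e4

theorem gam_cut2_zero (hF : F.Reg) (hp : p ∈ F.M) {r : ℝ} (hr : 1 ≤ r)
    (h : ‖p.1‖ < r - 1 ∨ r - 1 / 2 < ‖p.1‖) : F.gam (cut2 r) (cut2 r) p = 0 := by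
  rw [gam_cut2 hF hp, deriv_st_zero]; · simp
  rcases h with h | h
  · right; rw [lt_div_iff₀ (by linarith)]; nlinarith [norm_nonneg p.1]
  · left; exact div_neg_of_neg_of_pos (by nlinarith) (by linarith)

theorem gam_cut2_le (hF : F.Reg) (hp : p ∈ F.M) {r : ℝ} (hr : 1 ≤ r) :
    F.gam (cut2 r) (cut2 r) p ≤ cutK := by
  by_cases h : r - 1 / 2 < ‖p.1‖
  · rw [gam_cut2_zero hF hp hr (Or.inr h)]; exact cutK_nonneg
  rw [gam_cut2 hF hp, cutK, mul_comm 16]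
  have h0 := (sq_nonneg _).trans (Classical.choose_spec exists_st 0)
  have h1 : 4 * (‖p.1‖ ^ 2 - F.xn 0 p ^ 2) / (r - 3 / 4) ^ 2 ≤ 16 := by
    rw [div_le_iff₀ (pow_pos (by linarith) 2)]
    nlinarith [norm_nonneg p.1, sq_nonneg (F.xn 0 p), not_lt.1 h]
  have h2 := Hu.xn_sq_le hF hp 0
  rw [sub_zero] at h2
  exact mul_le_mul (Classical.choose_spec exists_st _) h1 (div_nonneg (by linarith) (sq_nonneg _)) h0

theorem core_pt {c v L q s h cs g gu gc K δ k : ℝ} (hk : 0 < k) (hK : 0 ≤ K) (hv : |v| ≤ δ)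
    (hcs : cs ^ 2 ≤ 1) (hgu : c ^ 2 * g ≤ 2 * gu + 2 * (v ^ 2 * gc))
    (heq : |L + q * v - (s - h * cs)| ≤ K * (v ^ 2 + g)) :
    -(c * (c * v) * L) - (c * v) ^ 2 * q ≤ -(c * (c * v) * s) + k / 8 * (c * v) ^ 2 +
      2 / k * (c ^ 2 * h ^ 2) + 2 * K * δ * ((c * v) ^ 2 + gu) + 2 * K * δ * (v ^ 2 * gc) := by
  have hδ := (abs_nonneg v).trans hv
  have h1 : -(v * (L + q * v - (s - h * cs))) ≤ δ * (K * (v ^ 2 + g)) := by
    refine (neg_le_abs _).trans ?_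
    rw [abs_mul]
    exact mul_le_mul hv heq (abs_nonneg _) hδ
  have h2 := mul_le_mul_of_nonneg_left h1 (sq_nonneg c)
  have h3 := mul_le_mul_of_nonneg_left hgu (mul_nonneg hK hδ)
  have h4 : c * v * (c * h * cs) ≤ k / 8 * (c * v) ^ 2 + 2 / k * (c * h * cs) ^ 2 := by
    have e : k / 8 * (c * v) ^ 2 + 2 / k * (c * h * cs) ^ 2 - c * v * (c * h * cs) =
        k / 8 * (c * v - 4 / k * (c * h * cs)) ^ 2 := by field_simp; ring
    have : 0 ≤ k / 8 * (c * v - 4 / k * (c * h * cs)) ^ 2 := by positivity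
    linarith
  have h5 : 2 / k * (c * h * cs) ^ 2 ≤ 2 / k * (c ^ 2 * h ^ 2) := by
    refine mul_le_mul_of_nonneg_left ?_ (by positivity)
    nlinarith [mul_le_mul_of_nonneg_left hcs (mul_nonneg (sq_nonneg c) (sq_nonneg h))]
  have h6 : 0 ≤ K * δ * (c * v) ^ 2 := by positivity
  nlinarith

/-- the energy inequality for `u = χ v` -/
theorem core (hF : F.Reg) {n : ℕ} {χ v q s cs : ST → ℝ} {ψ : Fin n → ST → ℝ} {c : Fin n → ℝ}
    {k K δ e : ℝ} (hk : 0 < k) (hK : 0 ≤ K) (hχ : Tf F t χ) (hv : F.Sm v)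
    (cq : ContinuousOn q F.M) (cs' : ContinuousOn s F.M) (cψ : ∀ i, ContinuousOn (ψ i) F.M)
    (h : ∀ x, (x, t) ∈ F.M → χ (x, t) ^ 2 ≤ 1 ∧ |v (x, t)| ≤ δ ∧ cs (x, t) ^ 2 ≤ 1 ∧
      |L0 F v (x, t) + q (x, t) * v (x, t) - (s (x, t) - F.shr (x, t) * cs (x, t))| ≤
        K * e1 F v (x, t) ∧
      |s (x, t) * gau 0 1 x - ∑ i, c i * ψ i (x, t)| ≤ e * gau 0 1 x ∧
      ∀ i, ψ i (x, t) = 0 ∨ χ (x, t) = 1) :
    IG F t (F.gam (fun p => χ p * v p) fun p => χ p * v p) -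
        IG F t (fun p => (χ p * v p) ^ 2 * q p) ≤
      -∑ i, c i * ∫ x, ψ i (x, t) * (χ (x, t) * v (x, t)) ∂F.mu t +
        (k / 4 + 2 * K * δ) * IG F t (e1 F fun p => χ p * v p) +
        2 / k * (e ^ 2 * IG F t (fun p => χ p ^ 2) + IG F t fun p => χ p ^ 2 * F.shr p ^ 2) +
        (1 + 2 * K * δ) * IG F t fun p => v p ^ 2 * F.gam χ χ p := by
  have hu : Tf F t fun p => χ p * v p := hχ.mul hF hv
  have h1 : Tf F t fun p => χ p * (χ p * v p) := hχ.mul hF hu.sm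
  have i1 := h1.ig_mul hF (sm_L0 hF hv).continuousOn
  have i2 := (hu.sq hF).ig_mul hF cq
  have i3 := h1.ig_mul hF cs'
  have i4 := hu.ig_sq hF
  have i5 := (hχ.sq hF).ig_mul hF (g := fun p => F.shr p ^ 2) (hF.sm_shr.continuousOn.pow 2)
  have i6 := hu.ig_e1 hF
  have i7 := (hχ.gam hF hχ.sm).ig_mul' hF (g := fun p => v p ^ 2) (hv.continuousOn.pow 2)
  have i8 := hχ.ig_sq hF
  have p1 : IG F t (fun p => (-1) * (χ p * (χ p * v p) * L0 F v p) - (χ p * v p) ^ 2 * q p) ≤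
      IG F t fun p => (-1) * (χ p * (χ p * v p) * s p) + k / 8 * (χ p * v p) ^ 2 +
        2 / k * (χ p ^ 2 * F.shr p ^ 2) + 2 * K * δ * e1 F (fun p => χ p * v p) p +
        2 * K * δ * (v p ^ 2 * F.gam χ χ p) := by
    refine IG_mono hF ((i1.cmul _).sub i2)
      (((((i3.cmul _).add (i4.cmul _)).add (i5.cmul _)).add (i6.cmul _)).add (i7.cmul _))
      fun x hx => ?_
    obtain ⟨-, a2, a3, a4, -⟩ := h x hx
    simp only [neg_one_mul]
    refine core_pt hk hK a2 a3 ?_ a4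
    rw [gam_mul hF hx hχ.sm hv]
    have := two_gam_le (F := F) χ v (x, t) (-(2 * v (x, t))) (χ (x, t))
    nlinarith
  have j : ∀ i, Integrable (fun x => ψ i (x, t) * (χ (x, t) * v (x, t))) (F.mu t) := fun i =>
    hu.int muFinS_holds hF (g := fun p => ψ i p * (χ p * v p)) ((cψ i).mul hu.sm.continuousOn)
      fun _ _ a _ => by simp only [a, mul_zero]
  have p2 : -IG F t (fun p => χ p * (χ p * v p) * s p) ≤
      -∑ i, c i * ∫ x, ψ i (x, t) * (χ (x, t) * v (x, t)) ∂F.mu t +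
        IG F t fun p => k / 8 * (χ p * v p) ^ 2 + 2 / k * (e ^ 2 * χ p ^ 2) := by
    have j1 : Integrable (fun x => ∑ i, c i * (ψ i (x, t) * (χ (x, t) * v (x, t)))) (F.mu t) :=
      integrable_finsetSum _ fun i _ => (j i).const_mul _
    simp only [← integral_const_mul]
    rw [← integral_finsetSum _ fun i _ => (j i).const_mul _, neg_add_eq_sub, le_sub_iff_add_le,
      neg_add_le_iff_le_add', IG, IG,
      ← integral_add ((i4.cmul (k / 8)).add ((i8.cmul (e ^ 2)).cmul (2 / k))) i3]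
    refine integral_mono_ae j1
      (Integrable.add ((i4.cmul (k / 8)).add ((i8.cmul (e ^ 2)).cmul (2 / k))) i3)
      ((Hu.ae_sl hF t).mono fun x hx => ?_)
    obtain ⟨-, -, -, -, a5, a6⟩ := h x hx
    have e1 : ∑ i, c i * (ψ i (x, t) * (χ (x, t) * v (x, t))) =
        χ (x, t) * (χ (x, t) * v (x, t)) * ∑ i, c i * ψ i (x, t) := by
      rw [Finset.mul_sum]
      exact Finset.sum_congr rfl fun i _ => by rcases a6 i with a | a <;> simp only [a] <;> ring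
    have hG := Gau.gau_pos 0 one_pos x
    have e2 : |χ (x, t) * (χ (x, t) * v (x, t))| * e ≤
        k / 8 * (χ (x, t) * v (x, t)) ^ 2 + 2 / k * (e ^ 2 * χ (x, t) ^ 2) := by
      rw [abs_mul, ← sq_abs (χ (x, t) * v (x, t)), ← sq_abs (χ (x, t))]
      generalize |χ (x, t) * v (x, t)| = a
      generalize |χ (x, t)| = b
      have e0 : k / 8 * a ^ 2 + 2 / k * (e ^ 2 * b ^ 2) - b * a * e =
        k / 8 * (a - 4 / k * (e * b)) ^ 2 := by field_simp; ring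
      have : 0 ≤ k / 8 * (a - 4 / k * (e * b)) ^ 2 := by positivity
      linarith
    have e3 : -(χ (x, t) * (χ (x, t) * v (x, t)) *
        (s (x, t) * gau 0 1 x - ∑ i, c i * ψ i (x, t))) ≤
        |χ (x, t) * (χ (x, t) * v (x, t))| * (e * gau 0 1 x) := by
      refine (neg_le_abs _).trans ?_
      rw [abs_mul (χ (x, t) * _)]
      exact mul_le_mul_of_nonneg_left a5 (abs_nonneg _)
    have e4 := mul_le_mul_of_nonneg_right e2 hG.le
    simp only [e1]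
    linarith
  rw [IG_sub (i1.cmul _) i2, IG_add ((((i3.cmul _).add (i4.cmul _)).add (i5.cmul _)).add (i6.cmul _))
    (i7.cmul _), IG_add (((i3.cmul _).add (i4.cmul _)).add (i5.cmul _)) (i6.cmul _),
    IG_add ((i3.cmul _).add (i4.cmul _)) (i5.cmul _), IG_add (i3.cmul _) (i4.cmul _)] at p1
  rw [IG_add (i4.cmul _) ((i8.cmul _).cmul _)] at p2
  simp only [IG_cmul] at p1 p2
  have p3 : IG F t (fun p => (χ p * v p) ^ 2) ≤ IG F t (e1 F fun p => χ p * v p) :=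
    IG_mono hF i4 i6 fun x _ => le_add_of_nonneg_right (F.gam_self_nonneg _ _)
  have p4 := mul_le_mul_of_nonneg_left p3 (show 0 ≤ k / 4 by positivity)
  rw [energy hF hχ hv]
  linarith

/-- the final absorption -/
theorem absorb {n : ℕ} {c Pi : Fin n → ℝ} {k κ K δ ε σ l A D w En Q Φ T Z X : ℝ} (hk : 0 < k)
    (hκ : 0 < κ) (hl : 0 < l) (hD : 0 ≤ D) (hE : 0 ≤ En) (hX : 0 ≤ X)
    (h1 : k * En ≤ Q + κ⁻¹ * ∑ i, Pi i ^ 2 + Z)
    (h2 : Q ≤ -∑ i, c i * Pi i + (k / 4 + 2 * K * δ) * En +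
      2 / k * ((w + ε * ‖c‖) ^ 2 * X + Φ) + T)
    (h3 : ∀ i, Pi i ^ 2 ≤ 2 * w ^ 2 + σ * En) (h4 : ‖c‖ ^ 2 ≤ D * (w ^ 2 + En)) (h5 : X ≤ A)
    (s1 : n * l * D ≤ k / 16) (s2 : n * σ * (1 / l + κ⁻¹) ≤ k / 16) (s3 : 2 * K * δ ≤ k / 16)
    (s4 : 4 / k * (ε ^ 2 * D * A) ≤ k / 16) :
    k / 2 * En ≤ (k / 8 + 2 * n * (1 / l + κ⁻¹) + 4 / k * A) * w ^ 2 + 2 / k * Φ + T + Z := by
  have a1 : ∑ i, Pi i ^ 2 ≤ n * (2 * w ^ 2 + σ * En) := by
    simpa [mul_add] using Finset.sum_le_sum (s := Finset.univ) fun i _ => h3 i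
  have a2 : -∑ i, c i * Pi i ≤ n * (l * ‖c‖ ^ 2) + 1 / l * ∑ i, Pi i ^ 2 := by
    have : ∀ i, -(c i * Pi i) ≤ l * ‖c‖ ^ 2 + 1 / l * Pi i ^ 2 := fun i => by
      have b1 : c i ^ 2 ≤ ‖c‖ ^ 2 := by
        rw [← sq_abs]; exact pow_le_pow_left₀ (abs_nonneg _) (norm_le_pi_norm c i) 2
      have e : l * c i ^ 2 + 1 / l * Pi i ^ 2 + 2 * (c i * Pi i) = l * (c i + Pi i / l) ^ 2 := by
        field_simp; ring
      have e' : l * c i ^ 2 + 1 / l * Pi i ^ 2 ≥ 0 := by positivity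
      have : 0 ≤ l * (c i + Pi i / l) ^ 2 := by positivity
      nlinarith [mul_le_mul_of_nonneg_left b1 hl.le]
    have := Finset.sum_le_sum (s := Finset.univ) fun i _ => this i
    simpa [Finset.sum_add_distrib, Finset.mul_sum] using this
  have a3 : (1 / l + κ⁻¹) * ∑ i, Pi i ^ 2 ≤ (1 / l + κ⁻¹) * (n * (2 * w ^ 2 + σ * En)) :=
    mul_le_mul_of_nonneg_left a1 (by positivity)
  have a4 : n * l * ‖c‖ ^ 2 ≤ n * l * (D * (w ^ 2 + En)) :=
    mul_le_mul_of_nonneg_left h4 (by positivity)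
  have a5 : (w + ε * ‖c‖) ^ 2 ≤ 2 * w ^ 2 + 2 * (ε ^ 2 * (D * (w ^ 2 + En))) := by
    nlinarith [sq_nonneg (w - ε * ‖c‖), mul_le_mul_of_nonneg_left h4 (sq_nonneg ε)]
  have a6 : 2 / k * ((w + ε * ‖c‖) ^ 2 * X) ≤
      2 / k * ((2 * w ^ 2 + 2 * (ε ^ 2 * (D * (w ^ 2 + En)))) * A) :=
    mul_le_mul_of_nonneg_left (mul_le_mul a5 h5 hX (by positivity)) (by positivity)
  have b1 := mul_le_mul_of_nonneg_right s1 (add_nonneg (sq_nonneg w) hE)
  have b2 := mul_le_mul_of_nonneg_right s2 hE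
  have b3 := mul_le_mul_of_nonneg_right s3 hE
  have b4 := mul_le_mul_of_nonneg_right s4 (add_nonneg (sq_nonneg w) hE)
  have e : 2 / k * ((2 * w ^ 2 + 2 * (ε ^ 2 * (D * (w ^ 2 + En)))) * A) =
      4 / k * A * w ^ 2 + 4 / k * (ε ^ 2 * D * A) * (w ^ 2 + En) := by ring
  linarith

end Crest.Agent.N250.Sg

end
end

-- ▼ part N250/Tb/Dual
section

/-!
# Row 250, tube calculus (helper80): the multipliers are bounded by the height (leaf DUAL)
-/

set_option autoImplicit false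
open MeasureTheory Set Filter Topology Function Metric
open scoped ContDiff InnerProductSpace
open Crest.GeometryTopology.MCF

noncomputable section

namespace Crest.Agent.N250.Tb

open Sg R

theorem am {a c T l : ℝ} (hl : 0 < l) (hc : 0 ≤ c) (hT : 0 ≤ T) (h : a ^ 2 ≤ c ^ 2 * T) :
    |a| ≤ c * ((l + T / l) / 2) := by
  refine abs_le_of_sq_le_sq (h.trans ?_) (by positivity)
  rw [mul_pow]
  gcongr
  have : l * (T / l) = T := mul_div_cancel₀ _ hl.ne'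
  nlinarith [sq_nonneg (l - T / l)]

theorem gau_le_one (x : E) : gau 0 1 x ≤ 1 := by
  have h1 : Real.exp (-‖x - 0‖ ^ 2 / (4 * 1)) ≤ 1 :=
    Real.exp_le_one_iff.2 (div_nonpos_of_nonpos_of_nonneg (by simp) (by norm_num))
  have h2 : (4 * Real.pi * 1)⁻¹ ≤ 1 := inv_le_one_of_one_le₀ (by linarith [Real.pi_gt_three])
  exact mul_le_one₀ h2 (Real.exp_pos _).le h1

theorem int_of_lint {μ : Measure E} {u : E → ℝ} {B : ℝ} (hB : 0 ≤ B)
    (hm : AEStronglyMeasurable u μ) (h0 : 0 ≤ᵐ[μ] u)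
    (h : ∫⁻ x, ENNReal.ofReal (u x) ∂μ ≤ ENNReal.ofReal B) : Integrable u μ ∧ ∫ x, u x ∂μ ≤ B := by
  refine ⟨⟨hm, (hasFiniteIntegral_iff_ofReal h0).2 (h.trans_lt ENNReal.ofReal_lt_top)⟩, ?_⟩
  rw [integral_eq_lintegral_of_nonneg_ae h0 hm]
  exact ENNReal.toReal_le_of_le_ofReal hB h

/-- points where a combination of independent functions has a sign -/
theorem exists_pts {T : Set E} {n : ℕ} {h : Fin n → E → ℝ} (hc : ∀ i, ContinuousOn (h i) T)
    (hi : ∀ c : Fin n → ℝ, (∀ x ∈ T, ∑ i, c i * h i x = 0) → c = 0) :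
    ∃ k r R : ℝ, 0 < k ∧ 0 < r ∧ 0 ≤ R ∧ ∀ c : Fin n → ℝ, c ≠ 0 → ∃ y ∈ T, ‖y‖ ≤ R ∧
      ∃ σ : ℝ, |σ| = 1 ∧ ∀ z ∈ T, dist z y < r → k * ‖c‖ ≤ σ * ∑ i, c i * h i z := by
  have key : ∃ k r R : ℝ, 0 < k ∧ 0 < r ∧ 0 ≤ R ∧ ∀ c ∈ sphere (0 : Fin n → ℝ) 1, ∃ y ∈ T,
      ‖y‖ ≤ R ∧ ∃ σ : ℝ, |σ| = 1 ∧ ∀ z ∈ T, dist z y < r → k ≤ σ * ∑ i, c i * h i z := by
    refine (isCompact_sphere (0 : Fin n → ℝ) 1).induction_on
      (p := fun B => ∃ k r R : ℝ, 0 < k ∧ 0 < r ∧ 0 ≤ R ∧ ∀ c ∈ B, ∃ y ∈ T,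
        ‖y‖ ≤ R ∧ ∃ σ : ℝ, |σ| = 1 ∧ ∀ z ∈ T, dist z y < r → k ≤ σ * ∑ i, c i * h i z)
      ⟨1, 1, 0, one_pos, one_pos, le_rfl, fun _ h => h.elim⟩
      (fun s t hst ⟨k, r, R, a, b, d, e⟩ => ⟨k, r, R, a, b, d, fun c hc => e c (hst hc)⟩) ?_ ?_
    · rintro s t ⟨k, r, R, a, b, d, e⟩ ⟨k', r', R', a', b', d', e'⟩
      refine ⟨min k k', min r r', max R R', lt_min a a', lt_min b b', le_max_of_le_left d, ?_⟩
      rintro c (hc | hc)
      · obtain ⟨y, h1, h2, σ, h3, h4⟩ := e c hc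
        exact ⟨y, h1, le_max_of_le_left h2, σ, h3, fun z hz hd =>
          (min_le_left _ _).trans (h4 z hz (hd.trans_le (min_le_left _ _)))⟩
      · obtain ⟨y, h1, h2, σ, h3, h4⟩ := e' c hc
        exact ⟨y, h1, le_max_of_le_right h2, σ, h3, fun z hz hd =>
          (min_le_right _ _).trans (h4 z hz (hd.trans_le (min_le_right _ _)))⟩
    · intro c hc0
      have hc1 : c ≠ 0 := by rintro rfl; simp at hc0
      obtain ⟨y, hy, hy0⟩ : ∃ y ∈ T, ∑ i, c i * h i y ≠ 0 := by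
        by_contra hh
        push Not at hh
        exact hc1 (hi c hh)
      obtain ⟨σ, s1, s2⟩ : ∃ σ : ℝ, |σ| = 1 ∧ 0 < σ * ∑ i, c i * h i y := by
        rcases hy0.lt_or_gt with h0 | h0
        · exact ⟨-1, by simp, by linarith⟩
        · exact ⟨1, by simp, by linarith⟩
      have h1 : ContinuousWithinAt (fun q : (Fin n → ℝ) × E => σ * ∑ i, q.1 i * h i q.2)
          (univ ×ˢ T) (c, y) :=
        continuousWithinAt_const.mul (tendsto_finsetSum _ fun i _ =>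
          ((continuous_apply i).comp continuous_fst).continuousWithinAt.mul
            (ContinuousWithinAt.comp (g := h i) (f := Prod.snd) (x := (c, y)) (hc i y hy)
              continuous_snd.continuousWithinAt fun _ hq => hq.2))
      obtain ⟨ε, hε, h2⟩ := Metric.mem_nhdsWithin_iff.1
        (h1.eventually (lt_mem_nhds (half_lt_self s2)))
      refine ⟨ball c ε, nhdsWithin_le_nhds (ball_mem_nhds c hε), _, ε, ‖y‖, half_pos s2, hε,
        norm_nonneg _, fun c' hc' => ⟨y, hy, le_rfl, σ, s1, fun z hz hd => le_of_lt ?_⟩⟩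
      exact h2 (show (c', z) ∈ _ from ⟨by rw [← ball_prod_same]; exact ⟨hc', hd⟩, trivial, hz⟩)
  obtain ⟨k, r, R, a, b, d, e⟩ := key
  refine ⟨k, r, R, a, b, d, fun c hc => ?_⟩
  have hn : 0 < ‖c‖ := norm_pos_iff.2 hc
  obtain ⟨y, h1, h2, σ, h3, h4⟩ := e (‖c‖⁻¹ • c) (by simp [norm_smul, hn.ne'])
  refine ⟨y, h1, h2, σ, h3, fun z hz hd => ?_⟩
  have := mul_le_mul_of_nonneg_right (h4 z hz hd) hn.le
  refine this.trans_eq ?_
  simp only [Pi.smul_apply, smul_eq_mul, mul_assoc, ← Finset.mul_sum]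
  field_simp

/-- `fv` is stable under `C²` perturbation -/
theorem fv_close {G S : Mv} {x y : E} {f : E → ℝ} {M κ δ : ℝ} (hG : G.Reg) (hx : x ∈ G.sl 0)
    (hf : C2 f M) (hκ : 0 ≤ κ) (hA : G.A2 (x, 0) ≤ κ ^ 2) (hδ : δ ≤ 1) (h1 : dist x y < δ)
    (h2 : ‖G.n (x, 0) - S.n (y, 0)‖ < δ) (h3 : ∀ a b, |G.A a b (x, 0) - S.A a b (y, 0)| < δ) :
    |G.fv f (x, 0) - S.fv f (y, 0)| ≤ M * (5 + 4 * κ) * δ := by
  have hM := hf.nonneg
  rw [dist_eq_norm] at h1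
  have h0 := norm_nonneg (x - y)
  have a1 := hf.l1 y (x - y)
  have a2 := hf.b2 y (x - y)
  rw [add_sub_cancel] at a1 a2
  have a3 : |⟪gradient f x - gradient f y, G.n (x, 0)⟫_ℝ| ≤ M * δ := by
    refine (abs_real_inner_le_norm _ _).trans ?_
    rw [hG.norm_n (p := (x, 0)) hx, mul_one]
    exact a1.trans (by gcongr)
  have a4 : |⟪gradient f y, G.n (x, 0) - S.n (y, 0)⟫_ℝ| ≤ M * δ :=
    (abs_real_inner_le_norm _ _).trans (mul_le_mul (hf.b1 y) h2.le (norm_nonneg _) hM)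
  have a5 : |f x - f y| ≤ 2 * M * δ := by
    have b1 : |⟪gradient f y, x - y⟫_ℝ| ≤ M * δ :=
      (abs_real_inner_le_norm _ _).trans (mul_le_mul (hf.b1 y) h1.le h0 hM)
    have b2 : M * ‖x - y‖ ^ 2 ≤ M * δ := by gcongr; nlinarith
    have := abs_le.1 b1
    have := abs_le.1 (a2.trans b2)
    rw [abs_le]; constructor <;> linarith
  have a6 : |G.H (x, 0) * (f x - f y)| ≤ 2 * κ * (2 * M * δ) := by
    rw [abs_mul]
    exact mul_le_mul (abs_H_le hG (p := (x, 0)) hx hκ hA) a5 (abs_nonneg _) (by positivity)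
  have a7 : |(G.H (x, 0) - S.H (y, 0)) * f y| ≤ 3 * δ * M := by
    rw [abs_mul]
    refine mul_le_mul ?_ (hf.b0 y) (abs_nonneg _) (by linarith)
    simp only [Mv.H_apply, Fin.sum_univ_three]
    have := abs_lt.1 (h3 0 0)
    have := abs_lt.1 (h3 1 1)
    have := abs_lt.1 (h3 2 2)
    rw [abs_le]; constructor <;> linarith
  rw [inner_sub_left] at a3
  rw [inner_sub_right] at a4
  have := abs_le.1 a3
  have := abs_le.1 a4
  have := abs_le.1 a6
  have := abs_le.1 a7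
  simp only [Mv.fv]
  rw [abs_le]; constructor <;> nlinarith

section Ctx

variable {N G : Mv} {Λ m ρ₀ ρ₁ r δ : ℝ} {x : E}

theorem _root_.Crest.Agent.N250.R.Ctx.hR (h : Ctx N Λ G m ρ₀) :
    ∀ y ∈ G.sl 0, y ∈ ball (0 : E) m → G.Reach (y, 0) ρ₀ :=
  fun y hy hb => h.greach y hy (mem_ball_zero_iff.1 hb)

theorem _root_.Crest.Agent.N250.R.Ctx.tub (h : Ctx N Λ G m ρ₀) :
    Tub G 0 (tube G 0 (ball 0 m) ρ₀) (pr G 0) (sd G 0) := Tb.tub h.greg h.hR isOpen_ball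

theorem _root_.Crest.Agent.N250.R.Ctx.A2_le (h : Ctx N Λ G m ρ₀) (h0 : 0 < ρ₀)
    (hx : x ∈ tube G 0 (ball 0 m) ρ₀) : G.A2 (pr G 0 x, 0) ≤ (2 / ρ₀) ^ 2 := by
  refine (reachAS_holds G h.greg _ (h.tub.mem x hx) ρ₀ h0 (pr_reach h.greg h.hR hx)).2.trans ?_
  rw [div_pow]; gcongr; norm_num

theorem _root_.Crest.Agent.N250.R.Ctx.cl (h : Ctx N Λ G m ρ₀) : IsClosed (N.sl 0) :=
  h.closed.preimage (Continuous.prodMk_left 0)

/-- the cut off height is smooth on the whole of `N` -/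
theorem sm_cut_ht (h : Ctx N Λ G m ρ₀) (hr : Nr N G m ρ₀ r ρ₁ δ) {s : ℝ} (h1 : 1 ≤ s)
    (hs : s < r) : N.Sm fun p => cut s p * ht (sd G 0) p := fun p hp => by
  by_cases hb : ‖p.1‖ < r
  · exact (sm_cut N s p hp).mul
      (h.tub.ht_at (hr p.1 ((h.st.mem p.1 p.2).1 hp) hb).2.1).contDiffWithinAt
  · refine (contDiffAt_const (c := (0 : ℝ))).congr_of_eventuallyEq ?_ |>.contDiffWithinAt
    filter_upwards [(continuous_fst.norm.tendsto p).eventually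
      (lt_mem_nhds (hs.trans_le (not_lt.1 hb)))] with q hq
    rw [cut_zero h1 hq.le, zero_mul]

theorem cut_ht_eq {s : ℝ} (h1 : 1 ≤ s) {p : ST} (hp : ‖p.1‖ < s - 1) :
    (fun p => cut s p * ht (sd G 0) p) =ᶠ[𝓝[N.M] p] ht (sd G 0) := by
  filter_upwards [nhdsWithin_le_nhds ((continuous_fst.norm.tendsto p).eventually
    (gt_mem_nhds hp))] with q hq
  rw [cut_one h1 hq.le, one_mul]

theorem tf_amb (hc : IsClosed N.M) {g : E → ℝ} (hg : ContDiff ℝ ∞ g) (hs : HasCompactSupport g)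
    (t : ℝ) : Tf N t fun p => g p.1 :=
  ⟨(hg.comp contDiff_fst).contDiffOn, N.M ∩ tsupport g ×ˢ {t},
    (hs.isCompact.prod isCompact_singleton).inter_left hc, inter_subset_left,
    fun _ hp ht hK => image_eq_zero_of_notMem_tsupport fun h => hK ⟨hp, h, ht⟩⟩

theorem mu_restrict (hN : N.Reg) (t : ℝ) (B : Set E) :
    (N.mu t).restrict (N.sl t ∩ B) = (N.mu t).restrict B :=
  Measure.restrict_congr_set (inter_ae_eq_right_of_ae_eq_univ ((Hu.ae_sl hN t).mono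
    fun _ hx => eq_true hx))

/-- the energy density as a real integral over a part of `N ∩ B_r` -/
theorem h1_int (h : Ctx N Λ G m ρ₀) (hr : Nr N G m ρ₀ r ρ₁ δ) {r' B : ℝ} {A : Set E}
    (hA : MeasurableSet A) (h1 : A ⊆ N.sl 0) (h2 : A ⊆ ball 0 r) (h3 : A ⊆ ball 0 r') (hB : 0 ≤ B)
    (hH : H1 N G r' ≤ ENNReal.ofReal B) :
    IntegrableOn (fun x => (sd G 0 x ^ 2 + N.gam (ht (sd G 0)) (ht (sd G 0)) (x, 0)) * gau 0 1 x)
      A (N.mu 0) ∧
    ∫ x in A, (sd G 0 x ^ 2 + N.gam (ht (sd G 0)) (ht (sd G 0)) (x, 0)) * gau 0 1 x ∂N.mu 0 ≤ B := by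
  have hW : A ⊆ N.sl 0 ∩ tube G 0 (ball 0 m) ρ₀ := fun x hx =>
    ⟨h1 hx, (hr x (h1 hx) (mem_ball_zero_iff.1 (h2 hx))).2.1⟩
  refine int_of_lint hB (ContinuousOn.aestronglyMeasurable ?_ hA) (Eventually.of_forall fun x =>
    mul_nonneg (add_nonneg (sq_nonneg _) (Mv.gam_self_nonneg _ _)) (Gau.gau_pos 0 one_pos x).le)
    (le_trans ?_ hH)
  · exact (((h.tub.ssd.continuousOn.mono fun x hx => (hW hx).2).pow 2).add
      ((h.tub.cont_gam h.greg h.reg 0).mono hW)).mul (Gau.gau_cont 0 1).continuousOn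
  · refine le_trans (le_of_eq (setLIntegral_congr_fun hA fun x hx => ?_)) (lintegral_mono_set h3)
    rw [h.tub.gam_ht h.greg h.reg (p := (x, 0)) (hW hx).1 (hW hx).2]; rfl

theorem dis_int (hN : N.Reg) {B : ℝ} (A : Set E) (hB : 0 ≤ B) (hH : N.dis ≤ ENNReal.ofReal B) :
    IntegrableOn (fun x => N.shr (x, 0) ^ 2 * gau 0 1 x) A (N.mu 0) ∧
      ∫ x in A, N.shr (x, 0) ^ 2 * gau 0 1 x ∂N.mu 0 ≤ B :=
  int_of_lint hB (Hu.aesm_sl hN (((hN.sm_shr.continuousOn.comp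
    (Continuous.prodMk_left 0).continuousOn fun _ hx => hx).pow 2).mul
      (Gau.gau_cont 0 1).continuousOn)).restrict
    (Eventually.of_forall fun x => mul_nonneg (sq_nonneg _) (Gau.gau_pos 0 one_pos x).le)
    ((setLIntegral_le_lintegral _ _).trans hH)

end Ctx

end Crest.Agent.N250.Tb

end
end

-- ▼ part N250/Sg/Mom
section

/-!
# Row 250, static Gaussian estimate (helper80): MOMENT
-/

set_option autoImplicit false
open MeasureTheory Set Filter Topology Function Metric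
open scoped ContDiff InnerProductSpace
open Crest.GeometryTopology.MCF

noncomputable section

namespace Crest.Agent.N250.Sg

open Tb R

variable {N G : Mv} {Λ m ρ₀ ρ₁ r δ : ℝ} {x : E}

theorem reach_le {F : Mv} {p : ST} {ρ ρ' : ℝ} (hn : ‖F.n p‖ = 1) (h : F.Reach p ρ)
    (h1 : ρ' ≤ ρ) : F.Reach p ρ' := fun y hy => by
  have e : ‖(ρ - ρ') • F.n p‖ = ρ - ρ' := by
    rw [norm_smul, hn, mul_one, Real.norm_of_nonneg (by linarith)]
  have a1 := dist_triangle y (p.1 + ρ' • F.n p) (p.1 + ρ • F.n p)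
  have a2 := dist_triangle y (p.1 - ρ' • F.n p) (p.1 - ρ • F.n p)
  rw [dist_comm (p.1 + _), dist_eq_norm (p.1 + _), add_sub_add_left_eq_sub, ← sub_smul, e] at a1
  rw [dist_eq_norm (p.1 - _), sub_sub_sub_cancel_left, ← sub_smul, e] at a2
  exact ⟨by linarith [(h y hy).1], by linarith [(h y hy).2]⟩

/-- GR in the standing situation -/
theorem ctx_gr2 (h : Ctx N Λ G m ρ₀) (hr : Nr N G m ρ₀ r ρ₁ δ) (h0 : 0 < δ) (h1 : ρ₀ ≤ 1)
    (hδ : δ ≤ min ρ₀ ρ₁ / 100) :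
    (∀ x ∈ N.sl 0, ‖x‖ < r - 1 →
      1 - ⟪N.n (x, 0), G.n (pr G 0 x, 0)⟫_ℝ ^ 2 ≤ 25 * δ / min ρ₀ ρ₁) ∧
    InjOn (pr G 0) (N.sl 0 ∩ ball 0 (r - 1)) := by
  have m1 := min_le_left ρ₀ ρ₁
  have k := gr_tube (V := ball 0 m) (U := ball 0 r) (ρ := min ρ₀ ρ₁) h.greg
    (fun y hy hb => reach_le (h.greg.norm_n (p := (y, 0)) hy) (h.hR y hy hb) m1) h.reg isOpen_ball
    (fun y hy hb => reach_le (h.reg.norm_n (p := (y, 0)) hy) (hr y hy (mem_ball_zero_iff.1 hb)).1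
      (min_le_right _ _)) (fun y hy _ => h.cl.closure_subset hy) h0 hδ fun w hw hb => by
      obtain ⟨-, a, b⟩ := hr w hw (mem_ball_zero_iff.1 hb)
      exact ⟨⟨_, pr_mem h.greg h.hR a, pr_memU h.greg h.hR a, _, by linarith,
        Tb.dec h.greg h.hR a⟩, b⟩
  have hb : ∀ x : E, ‖x‖ < r - 1 → closedBall x (2 * √(δ * min ρ₀ ρ₁)) ⊆ ball 0 r := fun x hx =>
    closedBall_subset_ball' (by
      have : √(δ * min ρ₀ ρ₁) ≤ 1 / 2 := Real.sqrt_le_iff.2 ⟨by norm_num, by nlinarith⟩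
      rw [dist_zero_right]; linarith)
  exact ⟨fun x hx hx' => k.1 x hx (hb x hx'),
    fun x hx y hy => k.2 ⟨hx.1, hb x (mem_ball_zero_iff.1 hx.2)⟩
      ⟨hy.1, hb y (mem_ball_zero_iff.1 hy.2)⟩⟩

/-- SURJ in the standing situation -/
theorem ctx_surj {S : Mv} {R₁ : ℝ} (h : Ctx N Λ G m ρ₀) (hr : Nr N G m ρ₀ r ρ₁ δ) (h0 : 0 < δ)
    (h1 : ρ₀ ≤ 1) (hδ : δ ≤ min ρ₀ ρ₁ / 200) (h2 : R₁ ≤ r) (h3 : R₁ ≤ m) (hn : Near G S R₁ δ)
    (hd : Hd N S R₁ δ) {y : E} (hy : y ∈ G.sl 0) (hy' : ‖y‖ < R₁ - 2) :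
    ∃ x ∈ N.sl 0, pr G 0 x = y ∧ dist x y ≤ 8 * δ := by
  have m1 := min_le_left ρ₀ ρ₁
  have hR := fun y hy hb => reach_le (h.greg.norm_n (p := (y, 0)) hy) (h.hR y hy hb) m1
  have hs : √(2 * δ * min ρ₀ ρ₁) ≤ 1 / 2 := Real.sqrt_le_iff.2 ⟨by norm_num, by nlinarith⟩
  obtain ⟨x, a, b, c, d⟩ := surj (V := ball 0 m) (U := ball 0 r) (ρ := min ρ₀ ρ₁) (δ := 2 * δ)
    h.greg isOpen_ball hR (cl_of_proper h.gprop fun y hy => ⟨hy, trivial⟩) h.reg isOpen_ball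
    (fun y hy hb => reach_le (h.reg.norm_n (p := (y, 0)) hy) (hr y hy (mem_ball_zero_iff.1 hb)).1
      (min_le_right _ _)) (fun y hy _ => h.cl.closure_subset hy) (by linarith) (by linarith) hy
    (closedBall_subset_ball' (by rw [dist_zero_right]; linarith))
    (closedBall_subset_ball' (by rw [dist_zero_right]; linarith)) fun w hw hb => by
      have := norm_le_of_mem_closedBall hb
      obtain ⟨z, hz, z1, -⟩ := hn.1 w hw (by linarith)
      have := norm_le_insert' z w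
      rw [← dist_eq_norm, dist_comm] at this
      obtain ⟨u, hu, u1⟩ := hd.2 z hz (by linarith)
      exact ⟨u, hu, by linarith [dist_triangle_right w u z]⟩
  exact ⟨x, a, c, by rw [← c, dist_pr h.greg hR b]; linarith⟩

theorem h1_ne_top (h : Ctx N Λ G m ρ₀) (hr : Nr N G m ρ₀ r ρ₁ δ) (hδ : δ ≤ 1) {s : ℝ} (h0 : 0 < s)
    (hs : s ≤ r) : H1 N G s ≠ ⊤ := by
  refine ne_top_of_le_ne_top (b := ∫⁻ _ in ball 0 s, ENNReal.ofReal 2 ∂N.mu 0) ?_
    (lintegral_mono_ae ?_)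
  · rw [setLIntegral_const]
    exact ENNReal.mul_ne_top ENNReal.ofReal_ne_top
      (ne_top_of_le_ne_top ENNReal.ofReal_ne_top (h.ar 0 0 s h0))
  · filter_upwards [ae_restrict_of_ae (Hu.ae_sl h.reg 0), ae_restrict_mem measurableSet_ball]
      with x hx hb
    have a := (sq_le_one_iff_abs_le_one _).2
      ((hr x hx ((mem_ball_zero_iff.1 hb).trans_le hs)).2.2.trans hδ)
    refine ENNReal.ofReal_le_ofReal ?_
    have := gau_le_one x
    have := Gau.gau_pos 0 one_pos x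
    nlinarith [sq_nonneg ⟪N.n (x, 0), G.n (pr G 0 x, 0)⟫_ℝ]

theorem momS_holds : MomS := by
  intro Λ ρ₀ ρ₁ M Rf σ hρ hρ1 hρ₁ hRf hσ
  set ρ := min ρ₀ ρ₁ with hρd
  have ρ0 : 0 < ρ := lt_min hρ hρ₁
  have m1 : ρ ≤ ρ₀ := min_le_left _ _
  set κ := 2 / ρ₀ with hκ
  have hκ0 : 0 ≤ κ := by positivity
  set Z := 4 * Real.pi * Real.exp ((Rf + 1) ^ 2 / 4) with hZ
  have hZ0 : 0 < Z := by have := Real.pi_pos; positivity
  set K := 2 * (M * (3 + 8 * κ ^ 2)) ^ 2 * (26 / ρ * (|Λ| * (Rf + 1) ^ 2)) * Z with hK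
  have hK0 : 0 ≤ K := by positivity
  refine ⟨min (ρ / 200) (σ / (K + 1)), by positivity, ?_⟩
  intro N G S m r R₁ δ w f d0 hδ h hR₁ hr hm hN hNe hH hf hf0 hw
  have d1 : δ ≤ ρ / 200 := hδ.trans (min_le_left _ _)
  have d2 : δ * K ≤ σ := by
    have := (le_div_iff₀ (by positivity)).1 (hδ.trans (min_le_right _ _))
    nlinarith
  obtain ⟨g1, g2⟩ := ctx_gr2 h hN d0 hρ1 (by linarith)
  set A := N.sl 0 ∩ ball 0 (Rf + 1) with hA
  have mA : MeasurableSet A := (Hu.meas_sl h.reg 0).inter measurableSet_ball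
  have nA : ∀ x ∈ A, ‖x‖ < Rf + 1 := fun x hx => mem_ball_zero_iff.1 hx.2
  have hT := fun x (hx : x ∈ A) => (hN x hx.1 (by linarith [nA x hx])).2
  have hs : A ⊆ N.sl 0 ∩ tube G 0 (ball 0 m) ρ₀ := fun x hx => ⟨hx.1, (hT x hx).1⟩
  have hfin : N.mu 0 A ≤ ENNReal.ofReal (|Λ| * (Rf + 1) ^ 2) :=
    (measure_mono inter_subset_right).trans ((h.ar 0 0 _ (by linarith)).trans
      (ENNReal.ofReal_le_ofReal (by gcongr; exact le_abs_self Λ)))
  have hfin' : N.mu 0 A ≠ ⊤ := (hfin.trans_lt ENNReal.ofReal_lt_top).ne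
  have key := h.tub.pair h.greg h.reg mA hs
    (g2.mono (inter_subset_inter_right _ (ball_subset_ball (by linarith)))) hfin' hκ0
    (fun x hx => h.A2_le hρ (hT x hx).1)
    (fun x hx => by
      have := mul_le_mul_of_nonneg_right ((hT x hx).2.trans (show δ ≤ ρ₀ / 4 by linarith)) hκ0
      rwa [show ρ₀ / 4 * κ = 1 / 2 by rw [hκ]; field_simp; norm_num] at this)
    (fun x hx => (hT x hx).2.trans (by linarith)) hf
    (fun x hx h0 => ⟨hx, mem_ball_zero_iff.2 (by linarith [not_le.1 fun a => h0 (hf0 x a)])⟩)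
    fun y hy h0 => by
      have a := not_le.1 fun a => h0 (hf0 y a)
      obtain ⟨x, b, c, d⟩ := ctx_surj h hN d0 hρ1 d1 hr (by linarith) hNe hH hy (by linarith)
      have := norm_le_insert' x y
      rw [← dist_eq_norm] at this
      exact ⟨x, ⟨b, mem_ball_zero_iff.2 (by linarith)⟩, c⟩
  obtain ⟨i1, e1⟩ := h1_int h hN mA inter_subset_left
    (fun x hx => mem_ball_zero_iff.2 (by linarith [nA x hx])) inter_subset_right
    ENNReal.toReal_nonneg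
    (ENNReal.ofReal_toReal (h1_ne_top h hN (by linarith) (by linarith) (by linarith))).ge
  have hb : ∀ x ∈ A, |sd G 0 x ^ 2 + N.gam (ht (sd G 0)) (ht (sd G 0)) (x, 0)| ≤ 26 / ρ * δ :=
    fun x hx => by
      have a1 := g1 x hx.1 (by linarith [nA x hx])
      have a2 := h.tub.gam_ht h.greg h.reg (p := (x, 0)) hx.1 (hT x hx).1
      have a3 : sd G 0 x ^ 2 ≤ δ ^ 2 := sq_le_sq' (abs_le.1 (hT x hx).2).1 (abs_le.1 (hT x hx).2).2
      have a4 : δ ^ 2 ≤ δ / ρ := by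
        rw [le_div_iff₀ ρ0]
        have : δ * ρ ≤ 1 := mul_le_one₀ (by linarith) ρ0.le (by linarith)
        nlinarith
      rw [abs_of_nonneg (add_nonneg (sq_nonneg _) (Mv.gam_self_nonneg _ _)), a2]
      change _ + (1 - ⟪N.n (x, 0), G.n (pr G 0 x, 0)⟫_ℝ ^ 2) ≤ _
      have : 26 / ρ * δ = δ / ρ + 25 * δ / ρ := by ring
      linarith
  have i2 : IntegrableOn (fun x => sd G 0 x ^ 2 + N.gam (ht (sd G 0)) (ht (sd G 0)) (x, 0)) A
      (N.mu 0) := Tub.intg_bdd mA hfin' (((h.tub.ssd.continuousOn.mono fun x hx =>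
        (hs hx).2).pow 2).add ((h.tub.cont_gam h.greg h.reg 0).mono hs)) hb
  set J := ∫ x in A, (sd G 0 x ^ 2 + N.gam (ht (sd G 0)) (ht (sd G 0)) (x, 0)) ∂N.mu 0 with hJ
  have J0 : 0 ≤ J := integral_nonneg fun x => add_nonneg (sq_nonneg _) (Mv.gam_self_nonneg _ _)
  have J1 : J ≤ 26 / ρ * δ * (|Λ| * (Rf + 1) ^ 2) := by
    refine (Real.le_norm_self _).trans
      ((norm_setIntegral_le_of_norm_le_const hfin'.lt_top hb).trans ?_)
    gcongr
    exact ENNReal.toReal_le_of_le_ofReal (by positivity) hfin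
  have J2 : J ≤ Z * (H1 N G (Rf + 1)).toReal := by
    refine le_trans ?_ (mul_le_mul_of_nonneg_left e1 hZ0.le)
    rw [← integral_const_mul]
    refine setIntegral_mono_on i2 (i1.const_mul _) mA fun x hx => ?_
    have := mul_le_mul_of_nonneg_left (gau_ge (nA x hx).le)
      (add_nonneg (sq_nonneg (sd G 0 x)) (Mv.gam_self_nonneg (F := N) (ht (sd G 0)) (x, 0)))
    linarith
  rw [← mu_restrict h.reg]
  set I := ∫ x in A, sd G 0 x * G.fv f (pr G 0 x, 0) ∂N.mu 0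
  set C := M * (3 + 8 * κ ^ 2)
  have a1 : |I| ≤ w + C * J := by
    have := abs_le.1 key
    have := abs_le.1 hw
    rw [abs_le]; constructor <;> linarith
  have a2 : I ^ 2 ≤ (w + C * J) ^ 2 := sq_le_sq' (abs_le.1 a1).1 (abs_le.1 a1).2
  have a3 : J * J ≤ 26 / ρ * δ * (|Λ| * (Rf + 1) ^ 2) * (Z * (H1 N G (Rf + 1)).toReal) :=
    mul_le_mul J1 J2 J0 (by positivity)
  have a4 := mul_le_mul_of_nonneg_left a3 (show 0 ≤ 2 * C ^ 2 by positivity)
  have a5 := mul_le_mul_of_nonneg_right d2 (ENNReal.toReal_nonneg (a := H1 N G (Rf + 1)))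
  rw [hK] at a5
  nlinarith [sq_nonneg (w - C * J)]

end Crest.Agent.N250.Sg

end
end

-- ▼ part N250/Tb/Dual2

/-!
# Row 250, tube calculus (helper80): leaf DUAL, main statement
-/

set_option autoImplicit false
open MeasureTheory Set Filter Topology Function Metric
open scoped ContDiff InnerProductSpace
open Crest.GeometryTopology.MCF

noncomputable section

namespace Crest.Agent.N250.Tb

open Sg R

variable {N G : Mv} {Λ m ρ₀ ρ₁ r δ : ℝ} {x : E}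

theorem gam_amb_le {p : ST} (hN : N.Reg) (hp : p ∈ N.M) {g : E → ℝ} {L : E →L[ℝ] ℝ} {B : ℝ}
    (hg : HasFDerivAt g L p.1) (hL : ‖L‖ ≤ B) :
    N.gam (fun q => g q.1) (fun q => g q.1) p ≤ (2 * B) ^ 2 := by
  have h1 : ∀ a, N.D a (fun q => g q.1) p * N.D a (fun q => g q.1) p ≤ B ^ 2 := fun a => by
    have e : N.D a (fun q => g q.1) p = L (N.PL p (ee a)) :=
      hN.td_eq hp (HasFDerivAt.comp p (f := Prod.fst) hg hasFDerivAt_fst).hasFDerivWithinAt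
        (hN.tg_PL hp _)
    have h2 := L.le_of_opNorm_le_of_le hL ((norm_PL_le hN hp (ee a)).trans (norm_ee a).le)
    rw [e, ← sq, ← sq_abs]
    rw [mul_one] at h2
    exact pow_le_pow_left₀ (abs_nonneg _) h2 2
  rw [Mv.gam_apply, Fin.sum_univ_three]
  nlinarith [h1 0, h1 1, h1 2, sq_nonneg B]

/-- Green's formula for the height against an ambient test function -/
theorem green_ht (h : Ctx N Λ G m ρ₀) (hr : Nr N G m ρ₀ r ρ₁ δ) {g : E → ℝ} (hg : ContDiff ℝ ∞ g)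
    (hs : HasCompactSupport g) {s : ℝ} (h0 : 0 ≤ s) (hsr : s + 1 < r) (h1 : tsupport g ⊆ ball 0 s) :
    Ig N 0 (fun p => g p.1 * L0 N (ht (sd G 0)) p + N.gam (fun q => g q.1) (ht (sd G 0)) p) ∧
    IG N 0 (fun p => g p.1 * L0 N (ht (sd G 0)) p + N.gam (fun q => g q.1) (ht (sd G 0)) p) = 0 := by
  have hu := tf_amb h.closed hg hs 0
  have hw := sm_cut_ht h hr (s := s + 1) (by linarith) hsr
  have i1 := (hu.mul h.reg (sm_L0 h.reg hw)).selfG muFinS_holds h.reg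
  have i2 := hu.ig_gam h.reg hw
  have e : ∀ x, (x, (0 : ℝ)) ∈ N.M →
      g x * L0 N (fun p => cut (s + 1) p * ht (sd G 0) p) (x, 0) +
        N.gam (fun q => g q.1) (fun p => cut (s + 1) p * ht (sd G 0) p) (x, 0) =
      g x * L0 N (ht (sd G 0)) (x, 0) + N.gam (fun q => g q.1) (ht (sd G 0)) (x, 0) := by
    intro x hx
    by_cases hb : x ∈ tsupport g
    · have e := cut_ht_eq (N := N) (G := G) (s := s + 1) (by linarith) (p := (x, 0))
        (by simpa using h1 hb)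
      simp only [L0, Sg.xD, Mv.gam_apply, Mv.lap_congr hx e, Mv.D_congr hx e]
    · have e : (fun q : ST => g q.1) =ᶠ[𝓝[N.M] (x, 0)] fun _ => 0 :=
        nhdsWithin_le_nhds ((continuous_fst.tendsto (x, (0 : ℝ))).eventually
          (notMem_tsupport_iff_eventuallyEq.1 hb))
      simp only [image_eq_zero_of_notMem_tsupport hb, zero_mul, Mv.gam_apply, Mv.D_congr hx e,
        h.reg.D_const hx]
  refine ⟨(i1.add i2).congr ((Hu.ae_sl h.reg 0).mono fun x hx => ?_), ?_⟩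
  · exact congrArg (· * gau 0 1 x) (e x hx)
  · rw [← IG_congr (f := fun p => g p.1 * L0 N (fun p => cut (s + 1) p * ht (sd G 0) p) p +
      N.gam (fun q => g q.1) (fun p => cut (s + 1) p * ht (sd G 0) p) p) h.reg e, IG_add i1 i2,
      green muFinS_holds divS_holds h.reg hu hw, neg_add_cancel]

/-- pointwise lower bound of the tested equation -/
theorem test_pt (h : Ctx N Λ G m ρ₀) (hρ : 0 < ρ₀) (hx : x ∈ N.sl 0)
    (hT : x ∈ tube G 0 (ball 0 m) ρ₀) (hd : |sd G 0 x| ≤ ρ₀ / 4) (hρ1 : ρ₀ ≤ 1) {g : E → ℝ}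
    {L : E →L[ℝ] ℝ} {B σ a l : ℝ} (hg : HasFDerivAt g L x) (hL : ‖L‖ ≤ B) (g0 : 0 ≤ g x)
    (g1 : g x ≤ 1) (hσ : |σ| = 1) (ha : a ≤ σ * G.shr (pr G 0 x, 0)) (hl : 0 < l) :
    g x * a - (1 + 6 * (2 / ρ₀) ^ 3 + 2 * (2 / ρ₀) + ((2 / ρ₀) ^ 2 + 1 / 2) + 2 * B) *
      ((l + (sd G 0 x ^ 2 + N.gam (ht (sd G 0)) (ht (sd G 0)) (x, 0) + N.shr (x, 0) ^ 2) / l) / 2)
      ≤ σ * (g x * L0 N (ht (sd G 0)) (x, 0) + N.gam (fun q => g q.1) (ht (sd G 0)) (x, 0)) := by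
  set κ := 2 / ρ₀ with hκ
  have hκ0 : 0 ≤ κ := by positivity
  have hB : 0 ≤ B := (norm_nonneg _).trans hL
  have hA := h.A2_le hρ hT
  have hA0 := A2_nonneg G (pr G 0 x, 0)
  have hdκ : |ht (sd G 0) (x, 0)| * κ ≤ 1 / 2 := by
    have := mul_le_mul_of_nonneg_right hd hκ0
    rwa [show ρ₀ / 4 * κ = 1 / 2 by rw [hκ]; field_simp; norm_num] at this
  have e1 := h.tub.eqn h.greg h.reg (p := (x, 0)) hx hT
  have e2 := h.tub.err_le h.greg h.reg (p := (x, 0)) hx hT hκ0 hA hdκ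
  have e3 := h.tub.gam_ht_le h.greg h.reg (p := (x, 0)) hx hT
  have e4 := h.tub.cs_sq_le h.greg h.reg (p := (x, 0)) hx hT
  have e5 := Mv.gam_sq_le (F := N) (fun q => g q.1) (ht (sd G 0)) (x, 0)
  have e6 := gam_amb_le (p := (x, 0)) h.reg hx hg hL
  have e7 := Mv.gam_self_nonneg (F := N) (ht (sd G 0)) (x, 0)
  have e8 : L0 N (ht (sd G 0)) (x, 0) =
    N.lap (ht (sd G 0)) (x, 0) - xD N (ht (sd G 0)) (x, 0) / 2 := rfl
  change _ + _ * sd G 0 x = _ at e1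
  change _ ≤ _ * sd G 0 x ^ 2 + _ at e2
  rw [← e8] at e1
  set v := sd G 0 x
  set γ := N.gam (ht (sd G 0)) (ht (sd G 0)) (x, 0)
  set φ := N.shr (x, 0)
  set c := cs G 0 (pr G 0) N (x, 0)
  set η := N.gam (fun q => g q.1) (ht (sd G 0)) (x, 0)
  have hv1 : v ^ 2 ≤ 1 := (sq_le_one_iff_abs_le_one _).2 (by linarith)
  have hT0 : 0 ≤ v ^ 2 + γ + φ ^ 2 := by positivity
  have b1 := am (a := φ * c) hl zero_le_one hT0 (by nlinarith [sq_nonneg φ, sq_nonneg v])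
  have b2 := am (a := v ^ 2) hl zero_le_one hT0 (by nlinarith [sq_nonneg φ, sq_nonneg v])
  have b3 := am (a := γ) hl zero_le_one hT0 (by nlinarith [sq_nonneg φ, sq_nonneg v])
  have b4 := am (a := v) hl zero_le_one hT0 (by nlinarith [sq_nonneg φ])
  have b5 := am (a := η) (c := 2 * B) hl (by positivity) hT0 (e5.trans (mul_le_mul e6
    (by nlinarith [sq_nonneg φ, sq_nonneg v]) e7 (by positivity)))
  set Q := (l + (v ^ 2 + γ + φ ^ 2) / l) / 2
  rw [one_mul] at b1 b2 b3 b4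
  rw [abs_of_nonneg (sq_nonneg v)] at b2
  rw [abs_of_nonneg e7] at b3
  have hQ : 0 ≤ Q := e7.trans b3
  have c1 : |err G 0 (pr G 0) (sd G 0) N (x, 0)| ≤ 6 * κ ^ 3 * Q + 2 * κ * Q :=
    e2.trans (by gcongr)
  have c2 : |(G.A2 (pr G 0 x, 0) + 1 / 2) * v| ≤ (κ ^ 2 + 1 / 2) * Q := by
    rw [abs_mul, abs_of_nonneg (by linarith)]; gcongr
  have c3 : |err G 0 (pr G 0) (sd G 0) N (x, 0) - φ * c - (G.A2 (pr G 0 x, 0) + 1 / 2) * v| ≤
      6 * κ ^ 3 * Q + 2 * κ * Q + Q + (κ ^ 2 + 1 / 2) * Q :=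
    (abs_sub _ _).trans (add_le_add ((abs_sub _ _).trans (add_le_add c1 b1)) c2)
  have c4 : |σ * (g x * (err G 0 (pr G 0) (sd G 0) N (x, 0) - φ * c -
      (G.A2 (pr G 0 x, 0) + 1 / 2) * v) + η)| ≤
      6 * κ ^ 3 * Q + 2 * κ * Q + Q + (κ ^ 2 + 1 / 2) * Q + 2 * B * Q := by
    rw [abs_mul, hσ, one_mul]
    refine (abs_add_le _ _).trans (add_le_add ?_ b5)
    rw [abs_mul, abs_of_nonneg g0]
    exact (mul_le_of_le_one_left (abs_nonneg _) g1).trans c3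
  have c5 := mul_le_mul_of_nonneg_left ha g0
  rw [eq_sub_of_add_eq e1]
  linarith [(abs_le.1 c4).1]

/-- leaf DUAL -/
theorem dual {S : Mv} {n : ℕ} {f : Fin n → E → ℝ} (hS : S.IsShr) (hC : Cons S f) (hρ : 0 < ρ₀)
    (hρ1 : ρ₀ ≤ 1) (hρ₁ : 0 < ρ₁) (Λ : ℝ) : ∃ δ R₁ C : ℝ, 0 < δ ∧ 0 < C ∧
    ∀ (N G : Mv) (m r R r' δ' w M : ℝ) (c : Fin n → ℝ), Ctx N Λ G m ρ₀ → δ' ≤ δ → R₁ ≤ r →
      R₁ ≤ R → R₁ ≤ r' → Nr N G m ρ₀ r ρ₁ δ' → Near G S R δ' → Hd N S R δ' → Lag G f c m w →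
      N.dis ≤ ENNReal.ofReal (w ^ 2) → 0 < w → 0 ≤ M → H1 N G r' ≤ ENNReal.ofReal (M ^ 2) →
      ‖c‖ ≤ C * (w + M) := by
  obtain ⟨K, hK0, hK⟩ := exists_C2_fin hC.sm hC.cs
  obtain ⟨k, r₁, R₀, hk, hr₁, hR₀, hpt⟩ := exists_pts (T := S.sl 0)
    (h := fun i x => S.fv (f i) (x, 0)) (fun i => (cont_fv hS.reg (hK i)).comp
      (Continuous.prodMk_left 0).continuousOn fun _ hx => hx) hC.indep
  set κ := 2 / ρ₀ with hκ
  have hκ0 : 0 ≤ κ := by positivity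
  obtain ⟨s, s0, s1, s2, s3⟩ : ∃ s : ℝ, 0 < s ∧ s ≤ r₁ / 2 ∧ s ≤ ρ₁ ∧ s ≤ 1 :=
    ⟨min (min (r₁ / 2) ρ₁) 1, by positivity, (min_le_left _ _).trans (min_le_left _ _),
      (min_le_left _ _).trans (min_le_right _ _), min_le_right _ _⟩
  obtain ⟨δ, d0, d1, d2, d3⟩ : ∃ δ : ℝ, 0 < δ ∧ δ ≤ s / 4 ∧ δ ≤ ρ₀ / 4 ∧
      n * (K * (5 + 4 * κ) * δ) ≤ k / 2 := by
    refine ⟨min (min (s / 4) (ρ₀ / 4)) (k / 2 / (n * (K * (5 + 4 * κ)) + 1)), by positivity,
      (min_le_left _ _).trans (min_le_left _ _), (min_le_left _ _).trans (min_le_right _ _), ?_⟩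
    have := (le_div_iff₀ (by positivity)).1
      (min_le_right (min (s / 4) (ρ₀ / 4)) (k / 2 / (n * (K * (5 + 4 * κ)) + 1)))
    have : 0 < min (min (s / 4) (ρ₀ / 4)) (k / 2 / (n * (K * (5 + 4 * κ)) + 1)) := by positivity
    nlinarith
  let b : ContDiffBump (0 : E) := ⟨s / 2, s, half_pos s0, half_lt_self s0⟩
  have hb : ContDiff ℝ ∞ b := b.contDiff
  obtain ⟨B, hB⟩ := (hb.continuous_fderiv (by simp)).bounded_above_of_compact_support
    (b.hasCompactSupport.fderiv ℝ)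
  have hB0 : 0 ≤ B := (norm_nonneg _).trans (hB 0)
  set C₁ := 1 + 6 * κ ^ 3 + 2 * κ + (κ ^ 2 + 1 / 2) + 2 * B with hC₁
  have hC₁0 : 0 ≤ C₁ := by positivity
  set Z := 4 * Real.pi * Real.exp ((R₀ + 1) ^ 2 / 4) with hZ
  have hZ0 : 0 < Z := by have := Real.pi_pos; positivity
  set γ₀ := Z⁻¹ * ((s / 4) ^ 2 / 32) with hγ₀
  have hγ : 0 < γ₀ := by positivity
  refine ⟨δ, R₀ + 4, 2 / k * (1 + C₁ * (|Λ| + 1) / γ₀), d0, by positivity, ?_⟩
  intro N G m r R r' δ' w M c h hδ hr hR hr' hN hNe hH hL hdis hw hM hH1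
  have hl : 0 < w + M := by positivity
  by_cases hc : c = 0
  · rw [hc, norm_zero]; positivity
  obtain ⟨y, hy, hyR, σ, hσ, hsg⟩ := hpt c hc
  set A := N.sl 0 ∩ ball y s with hA
  have mA : MeasurableSet A := (Hu.meas_sl h.reg 0).inter measurableSet_ball
  have nb : ∀ x ∈ closedBall y s, ‖x‖ ≤ R₀ + 1 := fun x hx => by
    have := norm_le_of_mem_closedBall hx; linarith
  have nA : ∀ x ∈ A, ‖x‖ ≤ R₀ + 1 := fun x hx => nb x (ball_subset_closedBall hx.2)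
  let g : E → ℝ := fun x => b (x - y)
  have hg : ContDiff ℝ ∞ g := hb.comp (contDiff_id.sub contDiff_const)
  have hg0 : ∀ x, x ∉ ball y s → g x = 0 := fun x hx =>
    b.zero_of_le_dist (by rwa [dist_zero_right, ← dist_eq_norm, ← not_lt, ← mem_ball])
  have hgs : tsupport g ⊆ closedBall y s :=
    closure_minimal (fun x hx => ball_subset_closedBall (by_contra fun h => hx (hg0 x h)))
      isClosed_closedBall
  have hgc : HasCompactSupport g := (isCompact_closedBall y s).of_isClosed_subset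
    (isClosed_tsupport _) hgs
  have hgd : ∀ x, HasFDerivAt g (fderiv ℝ b (x - y)) x := fun x =>
    (HasFDerivAt.comp x (f := fun x => x - y) (hb.differentiable (by simp) (x - y)).hasFDerivAt
      ((hasFDerivAt_id x).sub_const y)).congr_fderiv (ContinuousLinearMap.comp_id _)
  obtain ⟨i1, e1⟩ := green_ht h hN hg hgc (s := R₀ + 2) (by linarith) (by linarith)
    fun x hx => mem_ball_zero_iff.2 (by linarith [nb x (hgs hx)])
  -- sign of `shr` of the model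
  have hsh : ∀ x ∈ A, k / 2 * ‖c‖ - w ≤ σ * G.shr (pr G 0 x, 0) := fun x hx => by
    obtain ⟨-, h1, h2⟩ := hN x hx.1 (by linarith [nA x hx])
    have h3 := dist_pr h.greg h.hR h1
    have h4 : ‖pr G 0 x‖ ≤ ‖x‖ + δ := by
      have := norm_le_insert' (pr G 0 x) x
      rw [← dist_eq_norm, dist_comm, h3] at this
      linarith
    obtain ⟨z, hz, z1, z2, z3⟩ := hNe.1 _ (pr_mem h.greg h.hR h1) (by linarith [nA x hx])
    have h5 := hsg z hz (by
      have := dist_triangle4 z (pr G 0 x) x y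
      rw [dist_comm z (pr G 0 x), dist_comm (pr G 0 x) x, h3] at this
      linarith [mem_ball.1 hx.2])
    have h6 : |∑ i, c i * G.fv (f i) (pr G 0 x, 0) - ∑ i, c i * S.fv (f i) (z, 0)| ≤
        k / 2 * ‖c‖ := by
      rw [← Finset.sum_sub_distrib]
      refine (Finset.abs_sum_le_sum_abs _ _).trans ((Finset.sum_le_sum
        (g := fun _ => ‖c‖ * (K * (5 + 4 * κ) * δ)) fun i _ => ?_).trans ?_)
      · rw [← mul_sub, abs_mul]
        exact mul_le_mul (norm_le_pi_norm c i) (fv_close h.greg (pr_mem h.greg h.hR h1) (hK i) hκ0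
          (h.A2_le hρ h1) (by linarith) (z1.trans_le hδ) (z2.trans_le hδ)
          fun a b => (z3 a b).trans_le hδ) (abs_nonneg _) (norm_nonneg _)
      · simp only [Finset.sum_const, Finset.card_univ, Fintype.card_fin, nsmul_eq_mul]
        nlinarith [norm_nonneg c]
    have h7 := hL _ (pr_mem h.greg h.hR h1) (mem_ball_zero_iff.1 (pr_memU h.greg h.hR h1))
    have habs : ∀ a : ℝ, |σ * a| = |a| := fun a => by rw [abs_mul, hσ, one_mul]
    rw [← habs] at h6 h7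
    have h8 := Gau.gau_pos 0 one_pos (pr G 0 x)
    have h9 := gau_le_one (pr G 0 x)
    have h10 : k / 2 * ‖c‖ ≤ gau 0 1 (pr G 0 x) * (σ * G.shr (pr G 0 x, 0) + w) := by
      linarith [(abs_le.1 h6).1, (abs_le.1 h7).1]
    have h11 : 0 ≤ σ * G.shr (pr G 0 x, 0) + w :=
      nonneg_of_mul_nonneg_right ((by positivity : (0 : ℝ) ≤ _).trans h10) h8 |> fun h => h
    nlinarith
  have hfin : N.mu 0 A ≤ ENNReal.ofReal |Λ| := (measure_mono inter_subset_right).trans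
    ((h.ar 0 y s s0).trans (ENNReal.ofReal_le_ofReal (by
      nlinarith [le_abs_self Λ, abs_nonneg Λ, mul_le_one₀ s3 s0.le s3])))
  have hfin' : N.mu 0 A ≠ ⊤ := (hfin.trans_lt ENNReal.ofReal_lt_top).ne
  obtain ⟨i2, e2⟩ := h1_int h hN mA inter_subset_left
    (fun x hx => mem_ball_zero_iff.2 (by linarith [nA x hx]))
    (fun x hx => mem_ball_zero_iff.2 (by linarith [nA x hx])) (sq_nonneg M) hH1
  obtain ⟨i3, e3⟩ := dis_int h.reg A (sq_nonneg w) hdis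
  have i4 : IntegrableOn (fun x => g x * gau 0 1 x) A (N.mu 0) :=
    ((tf_amb h.closed hg hgc 0).selfG muFinS_holds h.reg).integrableOn
  have i5 : IntegrableOn (fun _ => (1 : ℝ)) A (N.mu 0) := integrableOn_const hfin'
  have e5 : ∫ _ in A, (1 : ℝ) ∂N.mu 0 ≤ |Λ| := by
    rw [setIntegral_const, smul_eq_mul, mul_one]
    exact ENNReal.toReal_le_of_le_ofReal (abs_nonneg _) hfin
  have e4 : γ₀ ≤ ∫ x in A, g x * gau 0 1 x ∂N.mu 0 := by
    obtain ⟨x₀, hx₀, hd₀⟩ := hH.2 y hy (by linarith)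
    have sub : ball x₀ (s / 4) ⊆ ball y (s / 2) := ball_subset_ball' (by linarith)
    have sub' : ball y (s / 2) ⊆ ball y s := ball_subset_ball (by linarith)
    have a1 := area_lower h.reg hx₀ (r := s / 4) (ρ := ρ₁) (by positivity) (by linarith)
      (fun z hz _ => h.cl.closure_subset hz)
      fun z hz hz' => (hN z hz (by linarith [nA z ⟨hz, sub' (sub hz')⟩])).1
    have sA : N.sl 0 ∩ ball x₀ (s / 4) ⊆ A := inter_subset_inter_right _ (sub.trans sub')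
    have a2 : N.mu 0 (N.sl 0 ∩ ball x₀ (s / 4)) = N.mu 0 (ball x₀ (s / 4)) := by
      rw [← Measure.restrict_apply_univ, mu_restrict h.reg, Measure.restrict_apply_univ]
    have a3 : (s / 4) ^ 2 / 32 ≤ (N.mu 0).real (N.sl 0 ∩ ball x₀ (s / 4)) :=
      (ENNReal.ofReal_le_iff_le_toReal (ne_top_of_le_ne_top hfin' (measure_mono sA))).1
        (a2 ▸ a1)
    refine le_trans ?_ (setIntegral_mono_set i4 (Eventually.of_forall fun x =>
      mul_nonneg b.nonneg (Gau.gau_pos 0 one_pos x).le) sA.eventuallyLE)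
    refine le_trans (mul_le_mul_of_nonneg_left a3 (by positivity)) (setIntegral_ge_of_const_le_real
      ((Hu.meas_sl h.reg 0).inter measurableSet_ball)
      (ne_top_of_le_ne_top hfin' (measure_mono sA)) (fun x hx => ?_) (i4.mono_set sA))
    have : g x = 1 := b.one_of_mem_closedBall (by
      rw [mem_closedBall_zero_iff, ← dist_eq_norm]; exact (mem_ball.1 (sub hx.2)).le)
    rw [this, one_mul, inv_le_iff_one_le_mul₀' hZ0]
    exact gau_ge (nA x (sA hx))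
  have e6 : ∫ x in A, σ * ((g x * L0 N (ht (sd G 0)) (x, 0) +
      N.gam (fun q => g q.1) (ht (sd G 0)) (x, 0)) * gau 0 1 x) ∂N.mu 0 = 0 := by
    rw [integral_const_mul, setIntegral_eq_integral_of_ae_compl_eq_zero]
    · exact mul_eq_zero_of_right _ e1
    refine (Hu.ae_sl h.reg 0).mono fun x hx hxA => ?_
    have z0 : g x = 0 := hg0 x fun hb => hxA ⟨hx, hb⟩
    have z1 : fderiv ℝ b (x - y) = 0 :=
      IsLocalMin.hasFDerivAt_eq_zero (Eventually.of_forall fun z => z0.trans_le b.nonneg) (hgd x)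
    have z2 := gam_amb_le (p := (x, 0)) h.reg hx (hgd x) (B := 0) (by simp [z1])
    have z3 := Mv.gam_sq_le (F := N) (fun q => g q.1) (ht (sd G 0)) (x, 0)
    have z4 := Mv.gam_self_nonneg (F := N) (ht (sd G 0)) (x, 0)
    have z5 : N.gam (fun q => g q.1) (ht (sd G 0)) (x, 0) = 0 :=
      pow_eq_zero_iff two_ne_zero |>.1 (le_antisymm (by nlinarith) (sq_nonneg _))
    rw [z0, z5]; simp
  have j1 : IntegrableOn (fun x => (sd G 0 x ^ 2 + N.gam (ht (sd G 0)) (ht (sd G 0)) (x, 0)) *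
      gau 0 1 x + N.shr (x, 0) ^ 2 * gau 0 1 x) A (N.mu 0) := i2.add i3
  have j2 : IntegrableOn (fun x => (w + M) * 1 + (w + M)⁻¹ * ((sd G 0 x ^ 2 +
      N.gam (ht (sd G 0)) (ht (sd G 0)) (x, 0)) * gau 0 1 x + N.shr (x, 0) ^ 2 * gau 0 1 x))
      A (N.mu 0) := (i5.const_mul _).add (j1.const_mul _)
  have e7 : ∫ x in A, ((k / 2 * ‖c‖ - w) * (g x * gau 0 1 x) - C₁ / 2 * ((w + M) * 1 +
      (w + M)⁻¹ * ((sd G 0 x ^ 2 + N.gam (ht (sd G 0)) (ht (sd G 0)) (x, 0)) * gau 0 1 x +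
        N.shr (x, 0) ^ 2 * gau 0 1 x))) ∂N.mu 0 ≤ 0 := by
    refine le_of_le_of_eq (setIntegral_mono_on ((i4.const_mul _).sub (j2.const_mul _))
      (i1.integrableOn.const_mul σ) mA fun x hx => ?_) e6
    obtain ⟨-, h1, h2⟩ := hN x hx.1 (by linarith [nA x hx])
    have h3 := mul_le_mul_of_nonneg_right (test_pt h hρ hx.1 h1 (by linarith) hρ1 (hgd x) (hB _)
      b.nonneg b.le_one hσ (hsh x hx) hl) (Gau.gau_pos 0 one_pos x).le
    have h4 := mul_le_mul_of_nonneg_left (gau_le_one x) (show 0 ≤ C₁ / 2 * (w + M) by positivity)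
    rw [← hκ, ← hC₁, div_eq_inv_mul _ (w + M)] at h3
    linarith
  rw [integral_sub (i4.const_mul _) (j2.const_mul _), integral_const_mul, integral_const_mul,
    integral_add (i5.const_mul _) (j1.const_mul _), integral_const_mul,
    integral_const_mul, integral_add i2 i3] at e7
  have e8 : (w + M)⁻¹ * (M ^ 2 + w ^ 2) ≤ w + M := by
    rw [inv_mul_le_iff₀ hl]; nlinarith
  have e9 : (k / 2 * ‖c‖ - w) * ∫ x in A, g x * gau 0 1 x ∂N.mu 0 ≤ C₁ * (|Λ| + 1) * (w + M) := by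
    have a1 := mul_le_mul_of_nonneg_left (add_le_add e2 e3) (inv_pos.2 hl).le
    have a2 := mul_le_mul_of_nonneg_left e5 hl.le
    have a3 := mul_le_mul_of_nonneg_left (add_le_add a2 (a1.trans e8))
      (show 0 ≤ C₁ / 2 by positivity)
    have : 0 ≤ C₁ * (|Λ| + 1) * (w + M) := by positivity
    linarith
  have e10 : k / 2 * ‖c‖ - w ≤ C₁ * (|Λ| + 1) / γ₀ * (w + M) := by
    rcases le_or_gt (k / 2 * ‖c‖ - w) 0 with h0 | h0
    · exact h0.trans (by positivity)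
    · rw [div_mul_eq_mul_div _ γ₀, le_div_iff₀ hγ]
      exact (mul_le_mul_of_nonneg_left e4 h0.le).trans e9
  rw [mul_assoc, div_mul_eq_mul_div, le_div_iff₀ hk]
  linarith

end Crest.Agent.N250.Tb

end
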